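import Vale.Agent.P004C.Ms.St
import Vale.Agent.P004C.Al.Gb0

/-!
# P004 C, block MEAS: calculus of test functions and admissible vertices (row TFC)
-/

set_option linter.unusedSectionVars false

open NumberField Module Finset Algebra
open scoped Classical

noncomputable section

namespace Vale.Agent.P004C.Ms

open Al.Gx

namespace Tc

variable {K : Type} [Field K] [NumberField K] {ι : ℂ →+* ℂ_[2]} {J : K →+* ℂ}
  {M : Type} [Field M] [NumberField M] [Algebra K M] {π : 𝓞 K} {x y : M}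
  {c : Ideal (𝓞 M)} {l N : ℕ} {φ : M → ℂ} {n : ℕ}

theorem ow_int (h : IsIntegral ℤ x) : Ow π x := ⟨0, by simpa using h⟩

theorem int_nat (N : ℕ) : IsIntegral ℤ (N : M) := by
  simpa using (N : 𝓞 M).isIntegral_coe

theorem ow_mul (h : Ow π x) (k : Ow π y) : Ow π (x * y) := by
  obtain ⟨a, h⟩ := h
  obtain ⟨b, k⟩ := k
  exact ⟨a + b, by simpa only [pow_add, mul_mul_mul_comm] using h.mul k⟩

theorem ow_add (h : Ow π x) (k : Ow π y) : Ow π (x + y) := by
  obtain ⟨a, h⟩ := h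
  obtain ⟨b, k⟩ := k
  refine ⟨a + b, ?_⟩
  have e : algebraMap K M π ^ (a + b) * (x + y) =
      algebraMap K M π ^ b * (algebraMap K M π ^ a * x) +
        algebraMap K M π ^ a * (algebraMap K M π ^ b * y) := by ring
  rw [e]
  exact (((int_s π).pow b).mul h).add (((int_s π).pow a).mul k)

theorem ow_neg (h : Ow π x) : Ow π (-x) := by
  obtain ⟨a, h⟩ := h
  exact ⟨a, by simpa using h.neg⟩

theorem ow_sub (h : Ow π x) (k : Ow π y) : Ow π (x - y) := by
  simpa only [sub_eq_add_neg] using ow_add h (ow_neg k)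

theorem ow_map {o : K} (h : Ow π o) : Ow π (algebraMap K M o) := by
  obtain ⟨a, h⟩ := h
  exact ⟨a, by simpa using map_isIntegral_int (algebraMap K M) h⟩

theorem ow_tr (h : Ow π x) : Ow π (trace K M x) := by
  obtain ⟨a, h⟩ := h
  have := Module.Finite.of_restrictScalars_finite ℚ K M
  refine ⟨a, ?_⟩
  have k := Algebra.isIntegral_trace (R := ℤ) (L := K) h
  rw [← map_pow, ← Algebra.smul_def, map_smul] at k
  simpa using k

/-- a common denominator -/
theorem ex_den {κ : Type} [Fintype κ] (z : κ → M) :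
    ∃ D : ℕ, D ≠ 0 ∧ ∀ i, IsIntegral ℤ ((D : M) * z i) := by
  obtain ⟨D, h0, h⟩ := exists_integral_multiples ℤ ℚ (univ.image z)
  refine ⟨D.natAbs, by simpa using h0, fun i => ?_⟩
  have k := h (z i) (mem_image_of_mem _ (mem_univ i))
  rw [zsmul_eq_mul] at k
  rcases Int.natAbs_eq D with e | e
  · rw [e] at k; simpa using k
  · rw [e] at k; simpa using k.neg

theorem sm_mem (h : Sm c l) : (l : 𝓞 M) ∈ c := h.2.2.1 ▸ Ideal.absNorm_mem c

theorem sm_prime (h : Sm c l) : c.IsPrime :=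
  Ideal.isPrime_of_irreducible_absNorm (h.2.2.1 ▸ h.1)

theorem sm_ne (h : Sm c l) : c ≠ ⊥ := fun e => h.1.ne_zero (by rw [← h.2.2.1, e]; simp)

theorem sm_nat (h : Sm c l) (k : N.Coprime l) : (N : 𝓞 M) ∉ c := fun m => by
  obtain ⟨a, b, e⟩ := Nat.Coprime.cast (R := 𝓞 M) k
  exact (sm_prime h).ne_top ((Ideal.eq_top_iff_one _).2
    (e ▸ c.add_mem (c.mul_mem_left _ m) (c.mul_mem_left _ (sm_mem h))))

theorem sm_mul (h : Sm c l) {a b : 𝓞 M} (ha : a ∉ c) (hb : b ∉ c) : a * b ∉ c :=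
  fun m => ((sm_prime h).mem_or_mem m).elim ha hb

theorem ne0 (h : Sm c l) (k : N.Coprime l) : N ≠ 0 := by
  rintro rfl
  exact h.1.one_lt.ne' (by simpa using k)

theorem n_odd (h : Odd l) : ‖(l : ℂ_[2])‖ = 1 := by
  obtain ⟨m, rfl⟩ := h
  have : ‖(2 * m : ℂ_[2])‖ < ‖(1 : ℂ_[2])‖ := by
    rw [norm_mul, nm_two, norm_one]
    have := IsUltrametricDist.norm_natCast_le_one ℂ_[2] m
    linarith
  push_cast
  rw [IsUltrametricDist.norm_add_eq_max_of_norm_ne_norm this.ne, max_eq_right this.le, norm_one]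

theorem pi_not {τ : ℕ → K} {ψ : K → ℂ} (A : Ar ι J π τ ψ) (h : Sm c l) :
    algebraMap (𝓞 K) (𝓞 M) π ∉ c := fun m => by
  obtain ⟨a, b, e⟩ := (A.cop l (by simpa using n_odd (h.1.odd_of_ne_two h.2.1))).map
    (algebraMap (𝓞 K) (𝓞 M))
  rw [map_natCast] at e
  exact (sm_prime h).ne_top ((Ideal.eq_top_iff_one _).2
    (e ▸ c.add_mem (c.mul_mem_left _ m) (c.mul_mem_left _ (sm_mem h))))

/-- exactly one point of a progression is in the smoothing prime -/
theorem sm_one (h : Sm c l) (y e : 𝓞 M) (he : e ∉ c) :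
    ∃ s0, s0 < l ∧ ∀ s, s < l → (y + (s : 𝓞 M) * e ∈ c ↔ s = s0) := by
  have hm : c.IsMaximal := (sm_prime h).isMaximal (sm_ne h)
  let _ := Ideal.Quotient.field c
  have hc : Nat.card (𝓞 M ⧸ c) = l := h.2.2.1
  have : Finite (𝓞 M ⧸ c) := Nat.finite_of_card_ne_zero (hc ▸ h.1.ne_zero)
  have hp : CharP (𝓞 M ⧸ c) l := (CharP.charP_iff_prime_eq_zero h.1).2 (by
    simpa using Ideal.Quotient.eq_zero_iff_mem.2 (sm_mem h))
  have inj : Function.Injective fun s : Fin l => ((s : ℕ) : 𝓞 M ⧸ c) := fun a b e =>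
    Fin.ext (CharP.natCast_injOn_Iio (𝓞 M ⧸ c) l a.2 b.2 e)
  have n0 : Ideal.Quotient.mk c e ≠ 0 := fun k => he (Ideal.Quotient.eq_zero_iff_mem.1 k)
  obtain ⟨s0, hs⟩ := ((Nat.bijective_iff_injective_and_card _).2 ⟨inj, by simp [hc]⟩).2
    (-Ideal.Quotient.mk c y / Ideal.Quotient.mk c e)
  refine ⟨s0, s0.2, fun s hl => ?_⟩
  rw [← Ideal.Quotient.eq_zero_iff_mem, map_add, map_mul, map_natCast]
  constructor
  · intro k
    refine congrArg Fin.val (inj (a₁ := ⟨s, hl⟩) (Eq.trans ?_ hs.symm))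
    rw [eq_div_iff n0]
    exact eq_neg_of_add_eq_zero_right k
  · rintro rfl
    rw [show ((s0 : ℕ) : 𝓞 M ⧸ c) = _ from hs, div_mul_cancel₀ _ n0, add_neg_cancel]

variable (π c l φ N) in
/-- `N` is a level of `φ` -/
def Lv : Prop := N.Coprime l ∧ (∀ x, φ x ≠ 0 → Ow π (N * x)) ∧
    (∀ (x : M) (u : 𝓞 M) (o : M), u ∈ c → Ow π o → φ (x + N * u * o) = φ x) ∧
    ∀ (x : M) (d : 𝓞 M), d ∉ c → ∑ s ∈ range l, φ (x + s * N * d) = 0

theorem Lv.mul (h : Sm c l) (k : Lv π c l N φ) {N' : ℕ} (k' : N'.Coprime l) :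
    Lv π c l (N * N') φ := by
  obtain ⟨k0, k1, k2, k3⟩ := k
  refine ⟨Nat.Coprime.mul_left k0 k', fun x hx => ?_, fun x u o hu ho => ?_, fun x d hd => ?_⟩
  · have e : ((N * N' : ℕ) : M) * x = N' * (N * x) := by push_cast; ring
    rw [e]
    exact ow_mul (ow_int (int_nat N')) (k1 x hx)
  · have e : ((N * N' : ℕ) : M) * u * o = N * u * (N' * o) := by push_cast; ring
    rw [e]
    exact k2 x u _ hu (ow_mul (ow_int (int_nat N')) ho)
  · refine Eq.trans (sum_congr rfl fun s _ => congrArg φ ?_) (k3 x _ (sm_mul h (sm_nat h k') hd))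
    push_cast
    ring

theorem tf_add (h : Sm c l) {φ' : M → ℂ} (a : Tf ι π c l φ) (b : Tf ι π c l φ') :
    Tf ι π c l (φ + φ') := by
  obtain ⟨⟨B, a0⟩, N, a⟩ := a
  obtain ⟨⟨B', b0⟩, N', b⟩ := b
  obtain ⟨p0, p1, p2, p3⟩ := Lv.mul h a b.1
  obtain ⟨-, q1, q2, q3⟩ := Lv.mul h b a.1
  rw [mul_comm N'] at q1 q2 q3
  refine ⟨⟨B + B', fun x => ?_⟩, N * N', p0, fun x hx => ?_, fun x u o hu ho => ?_,
    fun x d hd => ?_⟩
  · rw [Pi.add_apply, map_add]
    exact (norm_add_le _ _).trans (add_le_add (a0 x) (b0 x))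
  · by_contra k
    exact hx (by rw [Pi.add_apply, of_not_not (mt (p1 x) k), of_not_not (mt (q1 x) k), add_zero])
  · rw [Pi.add_apply, p2 x u o hu ho, q2 x u o hu ho, Pi.add_apply]
  · simp only [Pi.add_apply]
    rw [sum_add_distrib, p3 x d hd, q3 x d hd, add_zero]

theorem tf_smul (a : ℂ) (k : Tf ι π c l φ) : Tf ι π c l (a • φ) := by
  obtain ⟨⟨B, k0⟩, N, p0, p1, p2, p3⟩ := k
  refine ⟨⟨‖ι a‖ * B, fun x => ?_⟩, N, p0, fun x hx => p1 x (right_ne_zero_of_mul hx),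
    fun x u o hu ho => ?_, fun x d hd => ?_⟩
  · rw [Pi.smul_apply, smul_eq_mul, map_mul, norm_mul]
    exact mul_le_mul_of_nonneg_left (k0 x) (norm_nonneg _)
  · rw [Pi.smul_apply, p2 x u o hu ho, Pi.smul_apply]
  · simp only [Pi.smul_apply, smul_eq_mul]
    rw [← mul_sum, p3 x d hd, mul_zero]

theorem tf_zero : Tf ι π c l (0 : M → ℂ) :=
  ⟨⟨0, by simp⟩, 1, by simp, by simp, by simp, by simp⟩

/-- integral multiples of a unit at `l` and of its inverse -/
theorem ul_ex (h : Sm c l) {e : M} (u : Ul l e) : ∃ (N : ℕ) (p q : 𝓞 M), N.Coprime l ∧ p ∉ c ∧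
    q ∉ c ∧ (p : M) = N * e ∧ e * q = N := by
  obtain ⟨e0, N, h0, h1, h2⟩ := u
  have k : (⟨_, h1⟩ * ⟨_, h2⟩ : 𝓞 M) = N * N := by
    apply RingOfIntegers.ext
    change (N : M) * e * (N / e) = _
    push_cast
    field_simp
  have m := sm_mul h (sm_nat h h0) (sm_nat h h0)
  rw [← k] at m
  exact ⟨N, ⟨_, h1⟩, ⟨_, h2⟩, h0, fun a => m (c.mul_mem_right _ a), fun a => m (c.mul_mem_left _ a),
    rfl, mul_div_cancel₀ _ e0⟩

theorem tf_mul (h : Sm c l) {e : M} (u : Ul l e) (k : Tf ι π c l φ) :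
    Tf ι π c l fun x => φ (e * x) := by
  obtain ⟨⟨B, k0⟩, N, p0, p1, p2, p3⟩ := k
  obtain ⟨N', p, q, h0, hp, -, e1, e2⟩ := ul_ex h u
  refine ⟨⟨B, fun x => k0 _⟩, N * N', Nat.Coprime.mul_left p0 h0, fun x hx => ?_,
    fun x u o hu ho => ?_, fun x d hd => ?_⟩
  · have e : ((N * N' : ℕ) : M) * x = q * (N * (e * x)) := by push_cast; rw [← e2]; ring
    rw [e]
    exact ow_mul (ow_int q.isIntegral_coe) (p1 _ hx)
  · have e : e * (x + ((N * N' : ℕ) : M) * u * o) = e * x + N * u * (p * o) := by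
      push_cast; rw [e1]; ring
    rw [e]
    exact p2 _ u _ hu (ow_mul (ow_int p.isIntegral_coe) ho)
  · refine Eq.trans (sum_congr rfl fun s _ => congrArg φ ?_) (p3 (e * x) _ (sm_mul h hp hd))
    change _ = e * x + s * N * ((p : M) * d)
    push_cast
    rw [e1]
    ring

theorem li_mul {T : Fin n → M} {e : M} (k : LinearIndependent K fun j => e * T j) :
    LinearIndependent K T :=
  LinearIndependent.of_comp (LinearMap.mulLeft K e) k

theorem adm_mul (h : Sm c l) {T : Fin n → M} {e : M} (u : Ul l e) (k : Adm K c T) :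
    Adm K c fun j => e * T j := by
  refine k.imp (mt li_mul) fun k j => ?_
  obtain ⟨N', p, q, -, -, hq, -, e2⟩ := ul_ex h u
  obtain ⟨d, hd, k⟩ := k j
  refine ⟨q * d, sm_mul h hq hd, fun i hi => ?_⟩
  have e : e * T i * ((q * d : 𝓞 M) : M) = N' • (T i * d) := by
    push_cast
    rw [nsmul_eq_mul, ← e2]
    ring
  rw [e, map_nsmul, k i hi, smul_zero]

/-- the dual vectors -/
theorem ex_dual (hn : finrank K M = n) {T : Fin n → M} (k : LinearIndependent K T) :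
    ∃ y : Fin n → 𝓞 M, ∀ j, y j ≠ 0 ∧ ∀ i, i ≠ j → trace K M (T i * y j) = 0 := by
  have := Module.Finite.of_restrictScalars_finite ℚ K M
  let b := basisOfLinearIndependentOfCardEqFinrank' T k (by simp [hn])
  have hb : ∀ i, b i = T i := fun i => by simp [b]
  obtain ⟨D, D0, hD⟩ := ex_den b.traceDual
  refine ⟨fun j => ⟨_, hD j⟩, fun j => ⟨fun e => ?_, fun i hi => ?_⟩⟩
  · exact mul_ne_zero (Nat.cast_ne_zero.2 D0) (b.traceDual.ne_zero j)
      (congrArg (fun z : 𝓞 M => (z : M)) e)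
  · change trace K M (T i * ((D : M) * b.traceDual j)) = 0
    rw [mul_left_comm, ← nsmul_eq_mul, map_nsmul, ← hb, b.trace_mul_traceDual, if_neg hi,
      smul_zero]

theorem adm_pow (h : Sm c l) (hn : finrank K M = n) (T : Fin n → M) {ϖ : 𝓞 M} {g : ℕ}
    (g0 : 0 < g) (hg : Ideal.span {ϖ} = c ^ g) :
    ∃ B0, ∀ B, B0 ≤ B → Adm K c fun j => (ϖ : M) ^ B * T j := by
  by_cases k : LinearIndependent K T
  swap
  · exact ⟨0, fun B _ => Or.inl (mt li_mul k)⟩
  obtain ⟨y, hy⟩ := ex_dual hn k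
  have pc : Prime c := Ideal.prime_of_isPrime (sm_ne h) (sm_prime h)
  choose v I hI e using fun j => WfDvdMonoid.max_power_factor'
    (a₀ := Ideal.span {y j}) (by simpa using (hy j).1) pc.not_isUnit
  obtain ⟨L, hL⟩ := Ideal.dvd_span_singleton.2 (sm_mem h)
  have nL : ¬ c ∣ L := fun m => h.2.2.2 (by rw [hL, sq]; exact mul_dvd_mul_left c m)
  refine ⟨∑ j, v j, fun B hB => Or.inr fun j => ?_⟩
  obtain ⟨r, hr⟩ : ∃ r, g * B = r + v j := ⟨g * B - v j, by
    have := single_le_sum (f := v) (fun _ _ => Nat.zero_le _) (mem_univ j)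
    have := Nat.le_mul_of_pos_left B g0
    omega⟩
  have E : Ideal.span {(l : 𝓞 M) ^ r * y j} = c ^ (g * B) * (L ^ r * I j) := by
    rw [← Ideal.span_singleton_mul_span_singleton, ← Ideal.span_singleton_pow, hL, e j, hr]
    ring
  have E' : Ideal.span {ϖ ^ B} = c ^ (g * B) := by
    rw [← Ideal.span_singleton_pow, hg, pow_mul]
  obtain ⟨d, hd⟩ : ϖ ^ B ∣ (l : 𝓞 M) ^ r * y j := by
    rw [← Ideal.mem_span_singleton, ← Ideal.dvd_span_singleton, E, E']
    exact dvd_mul_right _ _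
  refine ⟨d, fun m => ?_, fun i hi => ?_⟩
  · rw [hd, ← Ideal.span_singleton_mul_span_singleton, E'] at E
    have := mul_left_cancel₀ (pow_ne_zero _ pc.ne_zero) E ▸ Ideal.dvd_span_singleton.2 m
    exact (pc.dvd_or_dvd this).elim (fun a => nL (pc.dvd_of_dvd_pow a)) (hI j)
  · have e : (ϖ : M) ^ B * T i * d = l ^ r • (T i * y j) := by
      have := congrArg (fun z : 𝓞 M => (z : M)) hd
      push_cast at this
      rw [nsmul_eq_mul, mul_right_comm, ← this]
      push_cast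
      ring
    rw [e, map_nsmul, (hy j).2 i hi, smul_zero]

variable (π c) in
/-- in the smoothing prime, away from `π` -/
def Pc (x : M) : Prop := ∃ (a : ℕ) (u : 𝓞 M), u ∈ c ∧ algebraMap K M π ^ a * x = u

theorem Pc.add (h : Pc π c x) {u : 𝓞 M} (hu : u ∈ c) (k : Ow π y) : Pc π c (x + u * y) := by
  obtain ⟨a, w, hw, e⟩ := h
  obtain ⟨b, k⟩ := k
  refine ⟨a + b, algebraMap (𝓞 K) (𝓞 M) π ^ b * w +
    algebraMap (𝓞 K) (𝓞 M) π ^ a * u * ⟨_, k⟩, c.add_mem (c.mul_mem_left _ hw)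
      (c.mul_mem_right _ (c.mul_mem_left _ hu)), ?_⟩
  change _ = algebraMap K M π ^ b * w + algebraMap K M π ^ a * u * (algebraMap K M π ^ b * y)
  rw [← e]
  ring

theorem pc_iff (h : Sm c l) (hp : algebraMap (𝓞 K) (𝓞 M) π ∉ c) {a : ℕ} {w : 𝓞 M}
    (e : algebraMap K M π ^ a * x = w) : Pc π c x ↔ w ∈ c := by
  refine ⟨fun ⟨b, u, hu, f⟩ => ?_, fun m => ⟨a, w, m, e⟩⟩
  have E : algebraMap (𝓞 K) (𝓞 M) π ^ b * w = algebraMap (𝓞 K) (𝓞 M) π ^ a * u := by
    apply RingOfIntegers.ext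
    change algebraMap K M π ^ b * w = algebraMap K M π ^ a * u
    rw [← e, ← f]
    ring
  exact ((sm_prime h).mem_or_mem (E ▸ c.mul_mem_left _ hu)).resolve_left
    fun m => hp ((sm_prime h).mem_of_pow_mem b m)

theorem tf_sm (h : Sm c l) (hp : algebraMap (𝓞 K) (𝓞 M) π ∉ c) {Φ : M → ℂ} {B : ℝ}
    (hN : N.Coprime l) (hB : ∀ x, ‖ι (Φ x)‖ ≤ B) (h1 : ∀ x, Φ x ≠ 0 → Ow π (N * x))
    (h2 : ∀ x o : M, Ow π o → Φ (x + N * o) = Φ x) :
    Tf ι π c l fun x => Φ x * (1 - if Pc π c (N * x) then (l : ℂ) else 0) := by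
  refine ⟨⟨B * (1 + ‖ι l‖), fun x => ?_⟩, N, hN, fun x hx => h1 x (left_ne_zero_of_mul hx),
    fun x u o hu ho => ?_, fun x d hd => ?_⟩
  · rw [map_mul, norm_mul]
    refine mul_le_mul (hB x) ?_ (norm_nonneg _) ((norm_nonneg _).trans (hB x))
    rw [map_sub, map_one]
    refine (norm_sub_le _ _).trans ?_
    split_ifs <;> simp
  · have m := ow_mul (ow_int (π := π) ((int_nat (M := M) N).mul (int_nat N))) ho
    have e : Pc π c (N * (x + N * u * o)) ↔ Pc π c (N * x) := by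
      refine ⟨fun k => ?_, fun k => ?_⟩
      · have := k.add hu (ow_neg m)
        rwa [show (N : M) * (x + N * u * o) + u * -(N * N * o) = N * x by ring] at this
      · have := k.add hu m
        rwa [show (N : M) * x + u * (N * N * o) = N * (x + N * u * o) by ring] at this
    rw [e, mul_assoc, h2 x _ (ow_mul (ow_int u.isIntegral_coe) ho)]
  · have e : ∀ s : ℕ, Φ (x + s * N * d) = Φ x := fun s => by
      rw [mul_comm (s : M), mul_assoc]
      exact h2 x _ (ow_int ((int_nat s).mul d.isIntegral_coe))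
    simp only [e]
    rw [← mul_sum]
    by_cases h0 : Φ x = 0
    · rw [h0, zero_mul]
    obtain ⟨a, ha⟩ := h1 x h0
    obtain ⟨s0, s1, hs⟩ := sm_one h ⟨_, ha⟩ (algebraMap (𝓞 K) (𝓞 M) π ^ a * (N * (N * d)))
      (sm_mul h (fun m => hp ((sm_prime h).mem_of_pow_mem a m))
        (sm_mul h (sm_nat h hN) (sm_mul h (sm_nat h hN) hd)))
    have E : ∀ s ∈ range l, (1 - if Pc π c (N * (x + s * N * d)) then (l : ℂ) else 0) =
        1 - if s = s0 then (l : ℂ) else 0 := fun s m => by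
      refine congrArg (1 - ·) (if_congr ((pc_iff h hp (a := a) ?_).trans
        (hs s (mem_range.1 m))) rfl rfl)
      change _ = algebraMap K M π ^ a * (N * x) +
        ((s : 𝓞 M) : M) * (algebraMap K M π ^ a * (((N : 𝓞 M) : M) * (((N : 𝓞 M) : M) * d)))
      push_cast
      ring
    rw [sum_congr rfl E, sum_sub_distrib, sum_ite_eq', if_pos (mem_range.2 s1)]
    simp

end Tc

open Tc in
/-- **export TFC** -/
theorem tfc : TFC := fun _ _ _ _ _ _ _ _ A _ _ _ _ _ _ h =>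
  ⟨fun _ _ => tf_add h, fun _ a => tf_smul a, tf_zero, fun _ _ => tf_mul h,
    fun _ _ _ => adm_mul h, fun _ T _ _ hn g0 hg => adm_pow h hn T g0 hg,
    fun _ _ _ => tf_sm h (pi_not A h)⟩

end Vale.Agent.P004C.Ms
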