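import Vale.Agent.P004C.Ms.Bs2a

/-!
# P004 C, block MEAS, row BS2: the one variable measures
-/

set_option linter.unusedSectionVars false

open NumberField Module Finset
open scoped Classical

noncomputable section

namespace Vale.Agent.P004C.Ms

namespace Bt

open In An Vale.Agent.P027H Al.Gx

variable {K : Type} [Field K] [NumberField K] {ι : ℂ →+* ℂ_[2]} {J : K →+* ℂ} {Ω : ℝ} {π : 𝓞 K}
  {τ : ℕ → K} {ψ : K → ℂ} {ω q : ℂ} {g : ℕ}

theorem of_eq {x y : K} (h : IsIntegral ℤ x) (e : y = x) : IsIntegral ℤ y := e ▸ h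

theorem ow_eq {x y : K} (h : Ow π x) (e : y = x) : Ow π y := e ▸ h

theorem ow_int {x : K} (h : IsIntegral ℤ x) : Ow π x := ⟨0, by simpa using h⟩

theorem ow_add {x y : K} (h : Ow π x) (k : Ow π y) : Ow π (x + y) := by
  obtain ⟨a, h⟩ := h
  obtain ⟨b, k⟩ := k
  exact ⟨a + b, of_eq ((((int_s (M := K) π).pow b).mul h).add (((int_s (M := K) π).pow a).mul k))
    (by ring)⟩

theorem ow_mul {c x : K} (hc : IsIntegral ℤ c) (h : Ow π x) : Ow π (c * x) := by
  obtain ⟨a, h⟩ := h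
  exact ⟨a, of_eq (hc.mul h) (by ring)⟩

theorem ow_sub {x y : K} (h : Ow π x) (k : Ow π y) : Ow π (x - y) := by
  simpa [sub_eq_add_neg] using ow_add h (ow_mul isIntegral_one.neg k)

theorem nat_int (n : ℕ) : IsIntegral ℤ (n : K) := by
  simpa using (n : 𝓞 K).isIntegral_coe

theorem int_of {x : K} {s : 𝓞 K} (h : Ow π x) (hs : IsCoprime π s) (k : IsIntegral ℤ ((s : K) * x)) :
    IsIntegral ℤ x := by
  obtain ⟨a, h⟩ := h
  obtain ⟨u, v, e⟩ := hs.pow_left (m := a)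
  have e2 : (u : K) * (π : K) ^ a + v * s = 1 := by
    exact_mod_cast congrArg (fun t : 𝓞 K => (t : K)) e
  refine of_eq ((u.isIntegral_coe.mul h).add (v.isIntegral_coe.mul k)) ?_
  change x = (u : K) * ((π : K) ^ a * x) + (v : K) * ((s : K) * x)
  linear_combination -x * e2

theorem psi0 (P : Ar ι J π τ ψ) (x : K) : ψ x ≠ 0 := by
  have := P.add x (-x)
  rw [add_neg_cancel, (P.ker 0).mpr (by simp)] at this
  exact left_ne_zero_of_mul_eq_one this.symm

theorem psi_nat (P : Ar ι J π τ ψ) (x : K) (j : ℕ) : ψ (j * x) = ψ x ^ j := by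
  induction j with
  | zero => simpa using (P.ker 0).mpr (by simp)
  | succ j h => rw [Nat.cast_succ, add_mul, one_mul, P.add, h, pow_succ]

theorem psi_c (P : Ar ι J π τ ψ) {c z : K} (hc : ‖ι (J c)‖ ≤ 1) (hz : ‖ι (J z)‖ ≤ 1) {A c' : ℕ}
    (h : ‖ι (J (c - c'))‖ ≤ (1 / 2) ^ A) (j : ℕ) :
    ψ (c * (z + j * τ A)) = (ψ (τ A) ^ j) ^ c' := by
  have e : c * (z + j * τ A) = c * z + (j * ((c - c') * τ A) + c' * (j * τ A)) := by ring
  rw [e, P.add, P.add, psi_nat P, psi_nat P, psi_nat P, (P.ker _).mpr, (P.ker _).mpr]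
  · simp
  · rw [map_mul, map_mul, norm_mul, P.tv]
    calc _ ≤ (1 / 2) ^ A * 2 ^ A := by gcongr
      _ = (1 : ℝ) := by rw [← mul_pow]; norm_num
  · rw [map_mul, map_mul, norm_mul]
    exact mul_le_one₀ hc (norm_nonneg _) hz

theorem one_w (P : Pre ι J Ω π τ ψ ω q) (hg : Odd g) {w : ℂ} (hw : w ^ g = 1) (h1 : w ≠ 1) :
    ∃ f : ℂ → ℂ, In.Ms ι (Lk J) (LL J g) (fun a => J (τ a)) q (fun a => ψ (τ a)) (ι ω) f ∧
      (∀ z ∉ LL J g, ∀ m ∈ LL J g, f (z + m) = xi J g w (-m) * f z) ∧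
      ∀ z : K, J z ∉ LL J g → ∀ n, Reg (fun x => xi J g w (J (x - z)) * pw J ω n x)
        (iteratedDeriv n f (J z) / ω ^ (n + 1)) := by
  have g0 : (g : ℂ) ≠ 0 := by exact_mod_cast hg.pos.ne'
  have hL : IsLat (LL J g) := P.lat.of_between le_LL hg.pos (mul_LL hg.pos)
  obtain ⟨κ, _, r, R⟩ := exists_reps hL le_LL hg.pos (mul_LL hg.pos)
  have hd : (1 / g : ℂ) ∈ LL J g := ⟨1, by simp⟩
  obtain ⟨f, hf, hs⟩ := krx (Lk J) (LL J g) κ r (xi J g w) P.lat hL R (xi_add hg.pos hw)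
    (xi_one hg.pos hw) (1 / g) g hd hg.pos (by
      simp only [xi_nat hg.pos hw]
      have := mul_geom_sum w g
      rw [hw, sub_self] at this
      exact (mul_eq_zero.mp this).resolve_left (sub_ne_zero.mpr h1))
  refine ⟨f, P.ms _ κ r _ f hf (fun m hm hF => ?_) (xi_nm ι hg.pos hw) ⟨1 / g, hd, ?_⟩,
    fun z hz m hm => ?_, fun z hz n => ?_⟩
  · obtain ⟨y, rfl⟩ := ex_J hm
    refine (j_Lk J).mpr (int_of (s := g) (P.tor y hF) (P.cop _ (by simpa using nodd hg)) ?_)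
    have := mul_LL hg.pos _ hm
    rw [← map_natCast J, ← map_mul, j_Lk] at this
    simpa using this
  · have := xi_nat (J := J) hg.pos hw 1
    rw [Nat.cast_one, one_mul, pow_one] at this
    rw [av_apply, this, map_sub, map_one]
    exact nroot1 hg (by rw [← map_pow, hw, map_one]) fun e => h1 (ι.injective (by simpa using e))
  · rw [← hf.eig z hz m hm, ← mul_assoc, ← xi_add hg.pos hw _ (neg_mem hm) _ hm, neg_add_cancel,
      xi_one hg.pos hw 0 (zero_mem _), one_mul]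
  · refine reg_K (g := g) (F := xi J g w) z (fun m hm => dif_neg hm) _ ?_
    have h2 : Reg (fun m : LL J g => xi J g w m / (J z + m) ^ (n + 1))
        ((-1) ^ n / n.factorial * iteratedDeriv n f (J z)) := by
      refine ⟨Fin g × Fin g, inferInstance, 1,
        fun p => ⟨((p.1 : ℕ) + (p.2 : ℕ)) * (1 / g), Kx.um hd _ _⟩, by simp [hg.pos.ne'], ?_⟩
      have e : ∑ i : Fin g × Fin g, (1 : Fin g × Fin g → ℂ) i = (g : ℂ) ^ 2 := by simp [sq]
      rw [e]
      refine (hs (J z) hz n).congr_fun fun m => ?_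
      simp only [Fintype.sum_prod_type, sum_range, Pi.one_apply, one_mul, Submodule.coe_add,
        add_assoc]
    refine (h2.smul ((-1) ^ n * n.factorial / ω ^ (n + 1))).congr (fun m => ?_) ?_
    · rw [pw, map_add, J_jl, mul_pow]
      generalize (J z + m) ^ (n + 1) = u
      ring
    · have : (n.factorial : ℂ) ≠ 0 := by exact_mod_cast n.factorial_ne_zero
      have e : ((-1 : ℂ) ^ n) * (-1) ^ n = 1 := by rw [← mul_pow]; simp
      have := P.o0
      field_simp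
      linear_combination -iteratedDeriv n f (J z) * e

theorem core (P : Pre ι J Ω π τ ψ ω q) (hg : Odd g) (s : ℕ) :
    ∃ (T : Finset ℕ) (c : ℕ → ℂ) (f ξ : ℕ → ℂ → ℂ),
      (∀ b ∈ T, ‖ι (c b)‖ ≤ 1 ∧
        In.Ms ι (Lk J) (LL J g) (fun a => J (τ a)) q (fun a => ψ (τ a)) (ι ω) (f b) ∧
        (∀ m ∈ LL J g, ‖ι (ξ b m)‖ = 1) ∧
        ∀ z ∉ LL J g, ∀ m ∈ LL J g, f b (z + m) = ξ b (-m) * f b z) ∧
      (∀ z : K, J z ∉ LL J g → ∀ n, Reg (f1 (pw J ω n) (s / g) z)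
        (∑ b ∈ T, c b * (iteratedDeriv n (f b) (J z) / ω ^ (n + 1)))) ∧
      (∀ (ρ : K → ℂ) (z x : K), f1 ρ (s / g) z x = (∑ b ∈ T, c b * ξ b (J (x - z))) * ρ x) ∧
      ∀ b, ∀ m ∉ LL J g, ξ b m = 0 := by
  have hζ := Complex.isPrimitiveRoot_exp g hg.pos.ne'
  generalize Complex.exp _ = ζ at hζ
  have hw : ∀ b : ℕ, (ζ ^ b) ^ g = 1 := fun b => by
    rw [← pow_mul, mul_comm, pow_mul, hζ.pow_eq_one, one_pow]
  have := fun (b : ℕ) (hb : b ∈ (range g).erase 0) => one_w P hg (hw b)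
    (hζ.pow_ne_one_of_pos_of_lt (mem_erase.mp hb).1 (mem_range.mp (mem_erase.mp hb).2))
  choose! f h1 h2 h3 using this
  have e : ∀ (ρ : K → ℂ) (z x : K), f1 ρ (s / g) z x = (∑ b ∈ (range g).erase 0,
      (g : ℂ)⁻¹ * ((ζ ^ b) ^ (-s : ℤ) - 1) * xi J g (ζ ^ b) (J (x - z))) * ρ x := fun ρ z x => by
    rw [f1, ind_eq hg.pos hζ]
  refine ⟨(range g).erase 0, fun b => (g : ℂ)⁻¹ * ((ζ ^ b) ^ (-s : ℤ) - 1), f,
    fun b => xi J g (ζ ^ b), fun b hb => ⟨?_, h1 b hb, xi_nm ι hg.pos (hw b), h2 b hb⟩,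
    fun z hz n => ?_, e, fun b m hm => dif_neg hm⟩
  · rw [map_mul, map_inv₀, map_natCast, norm_mul, norm_inv, nodd hg, inv_one, one_mul, map_sub,
      map_one, map_zpow₀]
    refine nsub ?_ norm_one.le
    rw [norm_zpow, nroot hg.pos (by rw [← map_pow, hw, map_one]), one_zpow]
  · refine (Reg.sum _ fun b hb => (h3 b hb z hz n).smul _).congr (fun x => ?_) rfl
    rw [e, sum_mul]
    exact sum_congr rfl fun b _ => mul_assoc _ _ _

theorem not_mem (P : Pre ι J Ω π τ ψ ω q) {z : K} (H : ∀ y, J y ∈ LL J g → ¬ Ow π (z + y))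
    (j A : ℕ) : J (z + j * τ A) ∉ LL J g := fun h => H _ (map_neg J _ ▸ neg_mem h)
  (ow_eq (ow_sub (ow_int (π := π) isIntegral_zero) (ow_mul (nat_int j) (P.tw A))) (by ring))

theorem gd (P : Pre ι J Ω π τ ψ ω q) (hg : Odd g) (s : ℕ) {z : K}
    (H : ∀ y, J y ∈ LL J g → ¬ Ow π (z + y)) (e : ℕ) :
    (∃ r, Reg (f1 (pw J ω e) (s / g) z) r) ∧ ∀ (A : ℕ) (β : ℤ),
      ‖fo ι τ ψ (pw J ω e) (s / g) z A β‖ ≤ 1 ∧
      ‖fo ι τ ψ (pw J ω (e + 1)) (s / g) z A β - β * fo ι τ ψ (pw J ω e) (s / g) z A β‖ ≤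
        (1 / 2) ^ A := by
  obtain ⟨T, c, f, ξ, h1, h2, -, -⟩ := core P hg s
  have o0 : ι ω ≠ 0 := by simpa using P.o0
  have o1 : 0 < ‖ι ω‖ := norm_pos_iff.mpr o0
  have hF : ∀ m ∈ LL J g, ¬ Fm (av ι) (Lk J) q (J z + m) := fun m hm h => by
    obtain ⟨y, rfl⟩ := ex_J hm
    exact H y hm (P.tor _ (by rwa [map_add]))
  have e1 : ∀ n A β, fo ι τ ψ (pw J ω n) (s / g) z A β = ∑ b ∈ T, ι (c b) / ι ω ^ (n + 1) *
      ft (ι (ψ (τ A))) A (fun j => ι (iteratedDeriv n (f b) (J z + j * J (τ A)))) β := by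
    intro n A β
    rw [fo, ← ft_sum]
    refine ft_congr _ _ (fun j _ => ?_) _
    rw [(h2 _ (not_mem P H j A) n).rg_eq, map_sum]
    refine sum_congr rfl fun b _ => ?_
    simp only [map_mul, map_div₀, map_pow, map_add, map_natCast]
    ring
  refine ⟨⟨_, by simpa using h2 _ (not_mem P H 0 0) e⟩, fun A β => ⟨?_, ?_⟩⟩
  · rw [e1]
    refine nsum zero_le_one fun b hb => ?_
    rw [norm_mul, norm_div, norm_pow, div_mul_eq_mul_div, div_le_one (by positivity)]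
    exact (mul_le_of_le_one_left (norm_nonneg _) (h1 b hb).1).trans
      ((h1 b hb).2.1.int _ hF e A β)
  · rw [e1, e1, mul_sum, ← sum_sub_distrib]
    refine nsum (by positivity) fun b hb => ?_
    have := (h1 b hb).2.1.mom _ hF e A β
    rw [nm_two] at this
    rw [show ∀ x y : ℂ_[2], ι (c b) / ι ω ^ (e + 1 + 1) * x - β * (ι (c b) / ι ω ^ (e + 1) * y) =
      ι (c b) * (x - β * ι ω * y) / ι ω ^ (e + 2) from fun x y => by field_simp; ring,
      norm_div, norm_mul, norm_pow, div_le_iff₀ (by positivity)]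
    exact (mul_le_of_le_one_left (norm_nonneg _) (h1 b hb).1).trans this

theorem rh_out (P : Pre ι J Ω π τ ψ ω q) (hg : Odd g) (s : ℕ) {c z : K} (hc : ‖ι (J c)‖ ≤ 1)
    (hz : J z ∉ LL J g) (x : K) :
    f1 (rh J ψ ω c) (s / g) z x = (ψ (c * z) - 1) * f1 (pw J ω 0) (s / g) z x := by
  obtain ⟨T, d, f, ξ, -, -, h3, h4⟩ := core P hg s
  rw [h3, h3]
  by_cases h : J (x - z) ∈ LL J g
  · have x0 : x ≠ 0 := by
      rintro rfl
      exact hz (by simpa using h)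
    have : ψ (c * x) = ψ (c * z) := by
      rw [show c * x = c * z + c * (x - z) by ring, P.add, (P.ker (c * (x - z))).mpr, mul_one]
      rw [map_mul, map_mul, norm_mul]
      exact mul_le_one₀ hc (norm_nonneg _) (nm_LL ι hg h)
    rw [rh, if_neg x0, this, pw]
    simp only [pow_zero, Nat.factorial_zero, Nat.cast_one, zero_add, pow_one]
    ring
  · simp only [h4 _ _ h, mul_zero, sum_const_zero, zero_mul]

theorem rh_in (P : Pre ι J Ω π τ ψ ω q) (hg : Odd g) (s : ℕ) {c z : K} (hc : ‖ι (J c)‖ ≤ 1)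
    (hz : J z ∈ LL J g) : Reg (f1 (rh J ψ ω c) (s / g) z) (f1 (rh J ψ ω c) (s / g) z 0) := by
  obtain ⟨T, d, f, ξ, -, -, h3, h4⟩ := core P hg s
  refine .of_hasSum (hasSum_single 0 fun x x0 => ?_)
  rw [h3]
  by_cases h : J (x - z) ∈ LL J g
  · have hx : J x ∈ LL J g := by simpa using add_mem h hz
    rw [rh, if_neg x0, (P.ker _).mpr, sub_self, zero_div, mul_zero]
    rw [map_mul, map_mul, norm_mul]
    exact mul_le_one₀ hc (norm_nonneg _) (nm_LL ι hg hx)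
  · simp only [h4 _ _ h, mul_zero, sum_const_zero, zero_mul]

theorem pl (P : Pre ι J Ω π τ ψ ω q) (hg : Odd g) (s : ℕ) {c z : K} (hc : ‖ι (J c)‖ ≤ 1)
    (hz : ‖ι (J z)‖ ≤ 1) (A : ℕ) (β : ℤ) : ‖fo ι τ ψ (rh J ψ ω c) (s / g) z A β‖ ≤ 1 := by
  obtain ⟨c', hc'⟩ := P.den c hc A
  obtain ⟨T, d, f, ξ, h1, h2, h3, -⟩ := core P hg s
  have w0 : ι (ψ (τ A)) ≠ 0 := by simpa using psi0 P.toAr _
  have o0 : ι ω ≠ 0 := by simpa using P.o0
  have o1 : 0 < ‖ι ω‖ := norm_pos_iff.mpr o0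
  have out : ∀ j : ℕ, J (z + j * τ A) ∉ LL J g → ι (rg (f1 (rh J ψ ω c) (s / g) (z + j * τ A))) =
      ((ι (ψ (τ A)) ^ j) ^ c' - 1) * ι (rg (f1 (pw J ω 0) (s / g) (z + j * τ A))) := by
    intro j hj
    rw [(((h2 _ hj 0).smul _).congr (rh_out P hg s hc hj) rfl).rg_eq, (h2 _ hj 0).rg_eq,
      psi_c P.toAr hc hz hc']
    simp
  by_cases H : ∀ y, J y ∈ LL J g → ¬ Ow π (z + y)
  · rw [fo, ft_congr _ _ (fun j _ => (out j (not_mem P H j A)).trans (sub_one_mul _ _)), ft_sub,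
      ft_pow w0]
    exact nsub ((gd P hg s H 0).2 A _).1 ((gd P hg s H 0).2 A _).1
  · push Not at H
    obtain ⟨y, hy, H⟩ := H
    obtain ⟨t, t1, t2⟩ := P.loc (z + y) (by
      rw [map_add, map_add]
      exact (IsUltrametricDist.norm_add_le_max _ _).trans (max_le hz (nm_LL ι hg hy)))
    have hL : J z ∈ LL J g := by
      simpa using sub_mem (le_LL ((j_Lk J).mpr (int_of H (P.cop t t1) t2))) hy
    have e : ∀ j : ℕ, j < 2 ^ A → ι (rg (f1 (rh J ψ ω c) (s / g) (z + j * τ A))) =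
        ∑ b ∈ T, ι (d b * ξ b (-J z)) / ι ω * (∑ i ∈ range c', 1 * ((ι (ψ (τ A)) ^ j) ^ i *
          if j = 0 then ι ω else (ι (ψ (τ A)) ^ j - 1) * ι (f b (j * J (τ A)))) +
            if j = 0 then ι ω * ι (J (c - c')) else 0) := by
      intro j hj
      by_cases j0 : j = 0
      · subst j0
        rw [Nat.cast_zero, zero_mul, add_zero, (rh_in P hg s hc hL).rg_eq, h3, sum_mul, map_sum]
        refine sum_congr rfl fun b _ => ?_
        simp [rh]
        field_simp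
        ring
      · have n1 : (j : ℂ) * J (τ A) ∉ LL J g := fun k => by
          have := nm_LL ι hg k
          rw [map_mul, norm_mul, map_natCast, P.tv] at this
          exact absurd (nbig j0 hj) this.not_gt
        have n2 : J (z + j * τ A) ∉ LL J g := fun k => n1 (by simpa using sub_mem k hL)
        rw [out j n2, (h2 _ n2 0).rg_eq, map_sum, mul_sum]
        refine sum_congr rfl fun b hb => ?_
        rw [iteratedDeriv_zero, map_add, add_comm (J z), map_mul J, map_natCast,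
          (h1 b hb).2.2.2 _ n1 _ hL, ← geom_sum_mul]
        simp only [if_neg j0, one_mul, ← sum_mul, map_mul, map_div₀, zero_add, pow_one]
        ring
    rw [fo, ft_congr _ _ e, ft_sum]
    refine nsum zero_le_one fun b hb => ?_
    rw [norm_mul, norm_div, map_mul, norm_mul, (h1 b hb).2.2.1 _ (neg_mem hL), mul_one,
      div_mul_eq_mul_div, div_le_one o1, ft_add, ft_sum, ft_del]
    refine (mul_le_of_le_one_left (norm_nonneg _) (h1 b hb).1).trans
      ((IsUltrametricDist.norm_add_le_max _ _).trans (max_le (nsum o1.le fun i _ => ?_) ?_))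
    · rw [one_mul, ft_pow w0]
      exact (h1 b hb).2.1.pole A _
    · rw [norm_mul, norm_mul, norm_inv, norm_pow, nm_two, mul_left_comm]
      refine mul_le_of_le_one_right o1.le ?_
      rwa [inv_mul_le_one₀ (by positivity)]

end Bt

open Bt in
/-- **row BS2** -/
theorem bs2 : BS2 := by
  intro K _ _ ι J Ω π τ ψ ω q P
  refine ⟨P.toAr, P.om, P.o0, fun g s z e hg hz => gd P hg s (fun y hy H => hz ?_) e,
    fun g s z c hg hc => ⟨?_, pl P hg s hc⟩⟩
  · have := mul_LL hg.pos _ hy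
    rw [← map_natCast J, ← map_mul, j_Lk] at this
    exact ow_eq (ow_sub (ow_mul (nat_int g) H) (ow_int this)) (by ring)
  · by_cases h : J z ∈ LL J g
    · exact ⟨_, rh_in P hg s hc h⟩
    · obtain ⟨T, d, f, ξ, -, h2, -, -⟩ := core P hg s
      exact ⟨_, ((h2 _ h 0).smul _).congr (rh_out P hg s hc h) rfl⟩

end Vale.Agent.P004C.Ms
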