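import Vale.Agent.P004C.Ms.St

/-!
# P004 C, block MEAS: row CKE
-/

open Finset MvPowerSeries

noncomputable section

namespace Vale.Agent.P004C.Ms

open An

namespace Ck

variable {n : ℕ} (l : Fin n → Fin n → ℂ) (a : Fin n → ℂ)

/-- the inverse of an affine form -/
def U (j : Fin n) : MvPowerSeries (Fin n) ℂ := (C (a j) + ∑ i, C (l j i) * X i)⁻¹

/-- its derivatives -/
def V (j : Fin n) (m : ℕ) : MvPowerSeries (Fin n) ℂ :=
  C ((-1) ^ m * m.factorial : ℂ) * U l a j ^ (m + 1)

/-- the linear forms -/
def L (i : Fin n) : MvPolynomial (Fin n) ℂ := ∑ j, MvPolynomial.C (l j i) * MvPolynomial.X j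

/-- the transform -/
def T : MvPolynomial (Fin n) ℂ →ₗ[ℂ] MvPowerSeries (Fin n) ℂ :=
  (MvPolynomial.basisMonomials (Fin n) ℂ).constr ℂ fun e => ∏ j, V l a j (e j)

theorem d_U (i j : Fin n) : pderiv ℂ i (U l a j) = -U l a j ^ 2 * C (l j i) := by
  rw [U, pderiv_inv', map_add, pderiv_C, zero_add, map_sum]
  refine congrArg _ ((sum_eq_single i ?_ (by simp)).trans ?_)
  swap
  · rw [Derivation.leibniz, pderiv_C, pderiv_X_self, smul_zero, add_zero, smul_eq_mul, mul_one]
  · intro b _ h
    rw [Derivation.leibniz, pderiv_C, pderiv_X_of_ne h, smul_zero, smul_zero, add_zero]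

theorem d_V (i j : Fin n) (m : ℕ) : pderiv ℂ i (V l a j m) = C (l j i) * V l a j (m + 1) := by
  rw [V, V, Derivation.leibniz, pderiv_C, smul_zero, add_zero, pderiv_pow, d_U, smul_eq_mul,
    Nat.factorial_succ]
  simp only [Nat.add_sub_cancel, Nat.cast_mul, map_mul, map_pow, map_neg, map_one, map_natCast]
  ring

theorem d_prod (i : Fin n) (e : Fin n → ℕ) (s : Finset (Fin n)) :
    pderiv ℂ i (∏ j ∈ s, V l a j (e j)) =
      ∑ k ∈ s, C (l k i) * ∏ j ∈ s, V l a j (e j + if k = j then 1 else 0) := by
  induction s using Finset.induction_on with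
  | empty => simp
  | insert x s hx ih =>
    rw [prod_insert hx, Derivation.leibniz, ih, d_V, sum_insert hx, prod_insert hx, if_pos rfl,
      add_comm, smul_eq_mul, smul_eq_mul, mul_sum]
    refine congrArg₂ _ ?_ (sum_congr rfl fun k hk => ?_)
    · rw [prod_congr (g := fun j => V l a j (e j + if x = j then 1 else 0)) rfl fun j hj => by
        rw [if_neg (ne_of_mem_of_not_mem hj hx).symm, add_zero]]
      ring
    · rw [prod_insert hx, if_neg (ne_of_mem_of_not_mem hk hx), add_zero]
      ring

theorem T_mon (e : Fin n →₀ ℕ) (c : ℂ) :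
    T l a (MvPolynomial.monomial e c) = c • ∏ j, V l a j (e j) := by
  rw [← mul_one c, ← smul_eq_mul, ← MvPolynomial.smul_monomial, map_smul, smul_eq_mul, mul_one]
  exact congrArg _ ((MvPolynomial.basisMonomials (Fin n) ℂ).constr_basis ℂ _ e)

theorem d_T (i : Fin n) (p : MvPolynomial (Fin n) ℂ) :
    pderiv ℂ i (T l a p) = T l a (L l i * p) := by
  induction p using MvPolynomial.induction_on' with
  | add p q hp hq => rw [map_add, map_add, hp, hq, mul_add, map_add]
  | monomial e c =>
    rw [T_mon, Derivation.map_smul, d_prod, L, sum_mul, map_sum, smul_sum]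
    refine sum_congr rfl fun k _ => ?_
    rw [mul_assoc, MvPolynomial.X, MvPolynomial.monomial_mul, MvPolynomial.C_mul_monomial, T_mon,
      ← smul_eq_C_mul, smul_smul, one_mul, mul_comm c]
    simp only [Finsupp.add_apply, Finsupp.single_apply, add_comm (e _)]

theorem co_T (d : Fin n →₀ ℕ) : ∀ p, (∏ i, ((d i).factorial : ℂ)) * coeff d (T l a p) =
    constantCoeff (T l a ((∏ i, L l i ^ d i) * p)) := by
  induction d using Finsupp.induction with
  | zero => simp
  | single_add i b f _ _ ih =>
    clear * - ih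
    induction b with
    | zero => simpa using ih
    | succ b hb =>
      intro p
      rw [Finsupp.single_add, add_right_comm]
      generalize Finsupp.single i b + f = d at hb
      have e : ∀ {M : Type} [CommMonoid M] (g : Fin n → ℕ → M) (y : M),
          g i (d i + 1) = g i (d i) * y →
          ∏ j, g j ((d + Finsupp.single i 1 : Fin n →₀ ℕ) j) = (∏ j, g j (d j)) * y := fun g y h => by
        rw [← mul_prod_erase _ _ (mem_univ i), ← mul_prod_erase _ _ (mem_univ i), mul_right_comm,
          ← h, Finsupp.add_apply _ (Finsupp.single i 1), Finsupp.single_eq_same]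
        exact congrArg _ (prod_congr rfl fun j hj => by
          rw [Finsupp.add_apply _ (Finsupp.single i 1),
            Finsupp.single_eq_of_ne (ne_of_mem_erase hj), add_zero])
      rw [e (fun _ m => (m.factorial : ℂ)) _ (by
        rw [Nat.factorial_succ, Nat.cast_mul, mul_comm]), e (fun j m => L l j ^ m) _ (pow_succ _ _),
        mul_assoc _ (L l i), ← hb, ← d_T, coeff_pderiv]
      push_cast
      ring

end Ck

open Ck in
/-- **row CKE** -/
theorem cke : CKE := by
  intro n k l x P hP
  have h := co_T l (fun j => lf (l j) x) (dg n k) 1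
  have e1 : T l (fun j => lf (l j) x) 1 = ∏ j, U l (fun j => lf (l j) x) j := by
    rw [← MvPolynomial.C_1, ← MvPolynomial.monomial_zero', T_mon]
    simp [V]
  have e2 : ∀ i, dg n k i = k - 1 := fun _ => rfl
  simp only [e2, mul_one, prod_const, card_univ, Fintype.card_fin] at h
  rw [show ∏ i, L l i ^ (k - 1) = P from hP.symm, e1] at h
  rw [ck, cs, coeff_C_mul, mul_left_comm]
  refine congrArg _ (h.trans ?_)
  conv_lhs => rw [P.as_sum, map_sum, map_sum]
  refine sum_congr rfl fun e _ => ?_
  rw [T_mon, constantCoeff_smul, smul_eq_mul, map_prod]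
  refine congrArg _ (prod_congr rfl fun j _ => ?_)
  simp [V, U, constantCoeff_inv, div_eq_mul_inv]

end Vale.Agent.P004C.Ms
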