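import Vale.Agent.P004C.Ms.Prm
import Vale.Agent.P004C.Al.Gb0

/-!
# P004 C, block MEAS: representatives and the order of the group of torsion points
-/

open NumberField Module Finset Algebra
open scoped Classical

set_option linter.unusedSectionVars false

noncomputable section

namespace Vale.Agent.P004C.Ms

open Pm Al.Gx

namespace Ct

theorem nint (m : ℤ) : ‖(m : ℂ_[2])‖ = ‖(m : ℚ_[2])‖ := by
  rw [← map_intCast (algebraMap ℚ_[2] ℂ_[2]), norm_algebraMap']

theorem nint_le (m : ℤ) : ‖(m : ℂ_[2])‖ ≤ 1 := nint m ▸ Padic.norm_int_le_one m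

theorem ndvd (m : ℤ) (A : ℕ) : ‖(m : ℂ_[2])‖ ≤ (1 / 2) ^ A ↔ (2 ^ A : ℤ) ∣ m := by
  rw [nint, ← Nat.cast_ofNat (R := ℤ), ← Padic.norm_int_le_pow_iff_dvd]
  simp

theorem nodd {m : ℕ} (h : Odd m) : ‖(m : ℂ_[2])‖ = 1 := by
  rw [← Int.cast_natCast, nint]
  refine (Padic.norm_int_le_one _).antisymm (not_lt.1 fun k => ?_)
  rw [Padic.norm_intCast_lt_one_iff] at k
  exact (Nat.not_even_iff_odd.2 h) (even_iff_two_dvd.2 (Int.natCast_dvd_natCast.1 k))

theorem ndet {n : ℕ} {X Y : Matrix (Fin n) (Fin n) ℂ_[2]} {δ : ℝ} (h0 : 0 ≤ δ)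
    (hX : ∀ i j, ‖X i j‖ ≤ 1) (hY : ∀ i j, ‖Y i j‖ ≤ 1) (h : ∀ i j, ‖X i j - Y i j‖ ≤ δ) :
    ‖X.det - Y.det‖ ≤ δ := by
  rw [Matrix.det_apply', Matrix.det_apply', ← sum_sub_distrib]
  refine nsum h0 fun σ => ?_
  rw [← mul_sub]
  exact nmul (nint_le _) (ndif h0 (fun _ => hX _ _) (fun _ => hY _ _) (fun _ => h _ _) _)

/-- the kernel of an integral matrix modulo `2 ^ A` -/
theorem ker_card {n A : ℕ} (F : Matrix (Fin n) (Fin n) ℤ) (h : (1 / 2) ^ A ≤ ‖(F.det : ℂ_[2])‖) :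
    ‖((univ.filter fun j : Fin n → Fin (2 ^ A) =>
      ∀ k, (2 ^ A : ℤ) ∣ ∑ i, F k i * (j i : ℕ)).card : ℂ_[2])‖ = ‖(F.det : ℂ_[2])‖ := by
  have d0 : F.det ≠ 0 := fun e => by
    rw [e, Int.cast_zero, _root_.norm_zero] at h
    exact h.not_gt (by positivity)
  obtain ⟨v, m, hm, e⟩ := Nat.exists_eq_two_pow_mul_odd (Int.natAbs_ne_zero.2 d0)
  have na : ‖(F.det.natAbs : ℂ_[2])‖ = ‖(F.det : ℂ_[2])‖ := by
    rw [← Int.cast_natCast, Int.natCast_natAbs]
    rcases abs_choice F.det with k | k <;> simp [k]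
  have vA : v ≤ A := by
    rw [← na, e, Nat.cast_mul, norm_mul, nodd hm, mul_one, Nat.cast_pow, norm_pow, Nat.cast_ofNat,
      nm_two] at h
    exact (pow_le_pow_iff_right_of_lt_one₀ (by norm_num) (by norm_num)).1 h
  obtain ⟨c, hc⟩ : F.det ∣ m * 2 ^ A := by
    rw [← Int.natAbs_dvd, e, mul_comm]
    push_cast
    exact mul_dvd_mul_left _ (pow_dvd_pow 2 vA)
  let f : (Fin n → ZMod (2 ^ A)) →+ (Fin n → ZMod (2 ^ A)) :=
    (F.map (Int.castRingHom _)).mulVecLin.toAddMonoidHom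
  let r : (Fin n → ℤ) →+ (Fin n → ZMod (2 ^ A)) := (Int.castAddHom _).compLeft _
  have rs : Function.Surjective r := fun y => ⟨fun i => (y i).cast, funext fun i => by simp [r]⟩
  have rf : ∀ y, r (F.mulVec y) = f (r y) := fun y =>
    funext fun k => by simp [r, f, Matrix.mulVec, dotProduct]
  let N := LinearMap.range F.mulVecLin
  have c1 : N.toAddSubgroup.index = F.det.natAbs := by
    have i : Function.Injective F.mulVecLin := Matrix.mulVec_injective_of_det_ne_zero d0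
    rw [← LinearMap.det_toLin']
    exact (Submodule.natAbs_det_equiv N (LinearEquiv.ofInjective _ i)).symm
  have le : N.toAddSubgroup ≤ f.range.comap r := by
    rintro _ ⟨y, rfl⟩
    exact ⟨r y, (rf y).symm⟩
  have c2 := AddSubgroup.relIndex_mul_index le
  rw [AddSubgroup.index_comap_of_surjective _ rs, AddSubgroup.index_range, c1] at c2
  have kill : ∀ y ∈ f.range.comap r, m • y ∈ N := by
    rintro y ⟨z, hz⟩
    obtain ⟨z, rfl⟩ := rs z
    rw [← rf] at hz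
    choose w hw using fun i => (ZMod.intCast_eq_intCast_iff_dvd_sub _ _ _).1 (congrFun hz i)
    refine ⟨m • z + F.adjugate.mulVec (c • w), ?_⟩
    rw [Matrix.mulVecLin_apply, Matrix.mulVec_add, Matrix.mulVec_mulVec, Matrix.mul_adjugate,
      Matrix.smul_mulVec, Matrix.one_mulVec, Matrix.mulVec_smul]
    funext i
    have := hw i
    push_cast at this
    simp only [Pi.add_apply, Pi.smul_apply, smul_eq_mul]
    simp only [nsmul_eq_mul]
    linear_combination -(m : ℤ) * this - w i * hc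
  have od : Odd (N.toAddSubgroup.relIndex (f.range.comap r)) := by
    refine Nat.not_even_iff_odd.1 fun k => ?_
    have : Finite ((f.range.comap r) ⧸ N.toAddSubgroup.addSubgroupOf (f.range.comap r)) :=
      Nat.finite_of_card_ne_zero (left_ne_zero_of_mul (c2 ▸ Int.natAbs_ne_zero.2 d0))
    obtain ⟨x, hx⟩ := exists_prime_addOrderOf_dvd_card' 2 (even_iff_two_dvd.1 k)
    obtain ⟨y, rfl⟩ := QuotientAddGroup.mk_surjective x
    refine (Nat.not_even_iff_odd.2 hm) (even_iff_two_dvd.2 (hx ▸ addOrderOf_dvd_of_nsmul_eq_zero ?_))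
    rw [← QuotientAddGroup.mk_nsmul, QuotientAddGroup.eq_zero_iff]
    exact kill y y.2
  rw [← na, ← c2, Nat.cast_mul, norm_mul, nodd od, one_mul, Nat.card_eq_fintype_card,
    Fintype.card_subtype]
  congr 2
  have q : ∀ j : Fin n → ℕ, (∀ k, (2 ^ A : ℤ) ∣ ∑ i, F k i * j i) ↔
      (fun i => (j i : ZMod (2 ^ A))) ∈ f.ker := fun j => by
    rw [AddMonoidHom.mem_ker, funext_iff]
    refine forall_congr' fun k => ?_
    rw [← Nat.cast_ofNat (R := ℤ), ← Nat.cast_pow, ← ZMod.intCast_zmod_eq_zero_iff_dvd]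
    simp [f, Matrix.mulVec, dotProduct]
  refine card_nbij' (fun j i => ((j i : ℕ) : ZMod (2 ^ A))) (fun y i => ⟨(y i).val, ZMod.val_lt _⟩)
    (fun j k => ?_) (fun y k => ?_) (fun j _ => funext fun i => Fin.ext (ZMod.val_cast_of_lt (j i).2))
    fun y _ => funext fun i => ZMod.natCast_zmod_val _
  · simpa using (q _).1 (mem_filter.1 k).2
  · exact mem_filter.2 ⟨mem_univ _, (q _).2 (by simpa using k)⟩

variable {K : Type} [Field K] [NumberField K] {ι : ℂ →+* ℂ_[2]} {J : K →+* ℂ} {π : 𝓞 K}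
  {τ : ℕ → K} {ψ : K → ℂ}

theorem int_of (h : Ar ι J π τ ψ) {x : K} (h1 : Ow π x) (h2 : ‖ι (J x)‖ ≤ 1) : IsIntegral ℤ x := by
  obtain ⟨a, h1⟩ := h1
  obtain ⟨s, k1, k2⟩ := h.loc x h2
  obtain ⟨u, w, e⟩ := (h.cop s k1).pow_left (m := a)
  have e' : (u : K) * (algebraMap K K π ^ a * x) + w * (s * x) = x := by
    have := congrArg (fun z : 𝓞 K => (z : K) * x) e
    simpa [add_mul, mul_assoc] using this
  exact e' ▸ (u.isIntegral_coe.mul h1).add (w.isIntegral_coe.mul k2)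

theorem tau_le (h : Ar ι J π τ ψ) (A : ℕ) (y : K) :
    ‖ι (J (y * τ A))‖ ≤ 1 ↔ ‖ι (J y)‖ ≤ (1 / 2) ^ A := by
  rw [map_mul, map_mul, norm_mul, h.tv, one_div, inv_pow, ← one_div, le_div_iff₀ (by positivity)]

end Ct

open Ct

/-- **REP** -/
theorem rep : REP := by
  intro K _ _ ι J π τ ψ h N hN
  have N0 : (N : K) ≠ 0 := Nat.cast_ne_zero.2 hN
  have : Finite (𝓞 K ⧸ Ideal.span {(N : 𝓞 K)}) := Ideal.finiteQuotientOfFreeOfNeBot _
    (by simpa using hN)
  have it : ∀ x : K, IsIntegral ℤ x → ‖ι (J x)‖ ≤ 1 := fun x k => nm_int (ι.comp J) k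
  have sb : ∀ x y : K, ‖ι (J x)‖ ≤ 1 → ‖ι (J y)‖ ≤ 1 → ‖ι (J (x - y))‖ ≤ 1 := fun x y a b => by
    rw [map_sub, map_sub, sub_eq_add_neg]
    exact nadd a (by rwa [norm_neg])
  refine ⟨{q : 𝓞 K ⧸ Ideal.span {(N : 𝓞 K)} // ‖ι (J ((q.out : 𝓞 K) / N))‖ ≤ 1},
    Fintype.ofFinite _, fun q => (q.1.out : 𝓞 K) / N, fun q => q.2, fun A x h1 h2 => ?_⟩
  have t0 : τ A ≠ 0 := fun e => by
    have := h.tv A
    rw [e, map_zero, map_zero, _root_.norm_zero] at this
    exact this.not_lt (by positivity)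
  refine existsUnique_of_exists_of_unique ?_ fun p p' k k' => ?_
  · obtain ⟨c, hc⟩ := h.den (x / τ A) (by
      rwa [map_div₀, map_div₀, norm_div, h.tv, div_le_one (by positivity)]) A
    rw [← tau_le h, sub_mul, div_mul_cancel₀ _ t0] at hc
    obtain ⟨j, hj, jc⟩ : ∃ j : ℕ, j < 2 ^ A ∧ c ≡ j [MOD 2 ^ A] :=
      ⟨_, Nat.mod_lt c (by positivity), (Nat.mod_modEq c (2 ^ A)).symm⟩
    have c1 : ‖ι (J (x - j * τ A))‖ ≤ 1 := by
      have := (tau_le h A ((j : K) - c)).2 (by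
        simpa using (ndvd (j - c) A).2 (by exact_mod_cast Nat.modEq_iff_dvd.1 jc))
      convert sb _ _ hc this using 4
      ring
    have c2 : IsIntegral ℤ (N * (x - j * τ A)) := int_of h (by
      convert ow_add h1 (ow_int (-(N * j)) (h.tw A)) using 1
      push_cast
      ring) (by
      rw [map_mul, map_mul]
      exact nmul (by simpa using nint_le N) c1)
    obtain ⟨o, ho⟩ : ∃ o : 𝓞 K, (o : K) = N * (x - j * τ A) := ⟨⟨_, c2⟩, rfl⟩
    obtain ⟨w, hw⟩ := Ideal.mem_span_singleton'.1 (Ideal.Quotient.eq.1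
      (Ideal.Quotient.mk_out (Ideal.Quotient.mk (Ideal.span {(N : 𝓞 K)}) o)))
    have e : ((Ideal.Quotient.mk (Ideal.span {(N : 𝓞 K)}) o).out : 𝓞 K) / (N : K) =
        x - j * τ A - (-w : 𝓞 K) := by
      have := congrArg (algebraMap (𝓞 K) K) hw
      simp only [map_mul, map_sub, map_natCast, map_neg] at this ⊢
      rw [div_eq_iff N0]
      linear_combination ho - this
    refine ⟨(⟨_, e ▸ sb _ _ c1 (it _ (-w).isIntegral_coe)⟩, ⟨j, hj⟩), ?_⟩
    convert (-w).isIntegral_coe using 1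
    simp only [e]
    ring
  have d := k.sub k'
  have j : p.2 = p'.2 := by
    have a := (tau_le h A (((p'.2 : ℕ) : K) - (p.2 : ℕ))).1 (by
      convert sb _ _ (it _ d) (sb _ _ p'.1.2 p.1.2) using 4
      ring)
    have b := (ndvd ((p'.2 : ℕ) - (p.2 : ℕ)) A).1 (by simpa using a)
    exact Fin.ext (Nat.ModEq.eq_of_lt_of_lt (Nat.modEq_iff_dvd.2 (by exact_mod_cast b)) p.2.2 p'.2.2)
  refine Prod.ext (Subtype.ext ?_) j
  rw [← Ideal.Quotient.mk_out p.1.1, ← Ideal.Quotient.mk_out p'.1.1, eq_comm, Ideal.Quotient.eq]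
  obtain ⟨o, ho⟩ := (IsIntegralClosure.isIntegral_iff (A := 𝓞 K)).1 d
  refine Ideal.mem_span_singleton'.2 ⟨o, RingOfIntegers.ext ?_⟩
  simp only [map_mul, map_sub, map_natCast]
  rw [ho, j]
  field_simp
  ring

/-- **CNT** -/
theorem cnt : CNT := by
  intro K _ _ ι J π τ ψ h M _ _ _ n b d hb hd a
  have d0 : 0 < (1 / 2 : ℝ) ^ (a * n) * ‖ι (J (b.det d))‖ :=
    mul_pos (by positivity) (by simpa using (b.isUnit_det d).ne_zero)
  have t1 : Filter.Tendsto (fun A : ℕ => (2 : ℝ) ^ A) Filter.atTop Filter.atTop :=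
    tendsto_pow_atTop_atTop_of_one_lt one_lt_two
  obtain ⟨A, hA, h1, h2⟩ := ((Filter.eventually_ge_atTop a).and ((Filter.eventually_all.2
    fun p : Fin n × Fin n => t1.eventually_ge_atTop (‖ι (J (d.repr (b p.1) p.2))‖ * 2 ^ a)).and
    ((tendsto_pow_atTop_nhds_zero_of_lt_one (r := (1 / 2 : ℝ)) (by norm_num)
      (by norm_num)).eventually_lt_const d0))).exists
  have r2 : ∀ (x : M) k, b.repr (2 ^ a * x) k = 2 ^ a * b.repr x k := fun x k => by
    rw [← smul_eq_mul ((2 : K) ^ a), ← Finsupp.smul_apply, ← map_smul, Algebra.smul_def, map_pow,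
      map_ofNat]
  have n2 : ‖ι (J (2 ^ a))‖ = (1 / 2) ^ a := by
    rw [map_pow, map_pow, map_ofNat, map_ofNat, norm_pow, nm_two]
  refine ⟨A, hA, fun x i hx => ?_, ?_⟩
  · rw [← b.sum_repr x]
    simp only [map_sum, map_smul, Finsupp.coe_finsetSum, Finset.sum_apply, Finsupp.smul_apply,
      smul_eq_mul, map_mul]
    refine nsum (by positivity) fun k => le_trans ?_ (h1 (k, i))
    have := (hb _).1 hx k
    rw [r2, map_mul, map_mul, norm_mul, n2, one_div, inv_pow, inv_mul_le_one₀ (by positivity)] at this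
    rw [norm_mul, mul_comm]
    exact mul_le_mul_of_nonneg_left this (norm_nonneg _)
  have D1 : ∀ k i, ‖ι (J (b.repr (d i) k))‖ ≤ 1 := fun k i => (hb _).1 (hd i) k
  choose E hE using fun k i => h.den _ (D1 k i) A
  have a1 : (1 / 2 : ℝ) ^ (a * n) ≤ 1 := pow_le_one₀ (by norm_num) (by norm_num)
  have e1 : ‖((Matrix.of fun k i => (E k i : ℤ)).det : ℂ_[2])‖ = ‖ι (J (b.det d))‖ := by
    have := ndet (X := (ι.comp J).mapMatrix (b.toMatrix d))
      (Y := (Int.castRingHom _).mapMatrix (Matrix.of fun k i => (E k i : ℤ))) (δ := (1 / 2) ^ A)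
      (by positivity) D1 (fun k i => nint_le (E k i)) fun k i => by simpa [Basis.toMatrix_apply] using hE k i
    rw [← RingHom.map_det, ← RingHom.map_det, ← Basis.det_apply] at this
    have k := this.trans_lt (h2.trans_le (mul_le_of_le_one_left (norm_nonneg _) a1))
    rw [sub_eq_add_neg] at k
    exact (norm_neg _).symm.trans
      (IsUltrametricDist.norm_eq_of_add_norm_lt_max (lt_max_of_lt_left k)).symm
  have e2 : ‖(((2 ^ a : ℤ) • Matrix.of fun k i => (E k i : ℤ)).det : ℂ_[2])‖ =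
      (1 / 2) ^ (a * n) * ‖ι (J (b.det d))‖ := by
    rw [Matrix.det_smul, Int.cast_mul, norm_mul, e1, Fintype.card_fin, ← pow_mul, Int.cast_pow,
      norm_pow, Int.cast_ofNat, nm_two]
  rw [← e2, ← ker_card _ (e2 ▸ h2.le)]
  refine le_of_eq (congrArg (fun s : Finset _ => ‖(s.card : ℂ_[2])‖) (filter_congr fun j _ => ?_))
  refine (hb _).trans (forall_congr' fun k => ?_)
  have e3 : b.repr (2 ^ a * ∑ i, (((j i : ℕ) : K) * τ A) • d i) k =
      (∑ i, 2 ^ a * b.repr (d i) k * (j i : ℕ)) * τ A := by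
    simp only [r2, map_sum, map_smul, Finsupp.coe_finsetSum, Finset.sum_apply, Finsupp.smul_apply,
      smul_eq_mul, mul_sum, sum_mul]
    exact sum_congr rfl fun i _ => by ring
  have e4 : ‖ι (J (∑ i, 2 ^ a * b.repr (d i) k * (j i : ℕ))) - ((∑ i, ((2 ^ a : ℤ) •
      Matrix.of fun k i => (E k i : ℤ)) k i * (j i : ℕ) : ℤ) : ℂ_[2])‖ ≤ (1 / 2) ^ A := by
    rw [map_sum, map_sum, Int.cast_sum, ← sum_sub_distrib]
    refine nsum (by positivity) fun i => ?_
    convert nmul (nint_le (2 ^ a * (j i : ℕ))) (hE k i) using 2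
    simp [map_ofNat]
    ring
  rw [e3, tau_le h, ← ndvd]
  exact ⟨fun k => by simpa using nadd k ((norm_neg _).trans_le e4),
    fun k => by simpa using nadd e4 k⟩

end Vale.Agent.P004C.Ms
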