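import Vale.Agent.P004C.Ms.Dis

/-!
# P004 C, block MEAS: integration of polynomials against bounded measures
-/

set_option linter.unusedSectionVars false

open NumberField Module Finset Algebra Filter Topology
open scoped Classical

noncomputable section

namespace Vale.Agent.P004C.Ms

open Al.Gx Di MvPolynomial

namespace Li

/-- polynomials are bounded and Lipschitz on the unit disc -/
theorem lip {n : ℕ} (P : Ld.Py n) : ∃ C : ℝ, 0 ≤ C ∧ ∀ u v : Fin n → ℂ_[2], (∀ i, ‖u i‖ ≤ 1) →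
    (∀ i, ‖v i‖ ≤ 1) → ‖eval u P‖ ≤ C ∧ ∀ ε, 0 ≤ ε → (∀ i, ‖u i - v i‖ ≤ ε) →
      ‖eval u P - eval v P‖ ≤ C * ε := by
  induction P using MvPolynomial.induction_on with
  | C a => exact ⟨‖a‖, norm_nonneg _, fun u v _ _ => ⟨by simp, fun ε e _ => by
      simpa using mul_nonneg (norm_nonneg a) e⟩⟩
  | add p q hp hq =>
    obtain ⟨C, c, h⟩ := hp
    obtain ⟨D, d, k⟩ := hq
    refine ⟨C + D, add_nonneg c d, fun u v a b => ⟨?_, fun ε e f => ?_⟩⟩
    · rw [map_add]
      exact norm_add_le_of_le (h u v a b).1 (k u v a b).1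
    · rw [map_add, map_add, add_sub_add_comm, add_mul]
      exact norm_add_le_of_le ((h u v a b).2 ε e f) ((k u v a b).2 ε e f)
  | mul_X p i hp =>
    obtain ⟨C, c, h⟩ := hp
    refine ⟨C + C, add_nonneg c c, fun u v a b => ⟨?_, fun ε e f => ?_⟩⟩
    · rw [map_mul, eval_X, norm_mul]
      exact ((mul_le_of_le_one_right (norm_nonneg _) (a i)).trans (h u v a b).1).trans
        (le_add_of_nonneg_left c)
    · rw [map_mul, map_mul, eval_X, eval_X, add_mul, (by ring : eval u p * u i - eval v p * v i =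
        eval u p * (u i - v i) + (eval u p - eval v p) * v i)]
      refine norm_add_le_of_le ?_ ?_ <;> rw [norm_mul]
      · exact mul_le_mul (h u v a b).1 (f i) (norm_nonneg _) c
      · exact (mul_le_of_le_one_right (norm_nonneg _) (b i)).trans ((h u v a b).2 ε e f)

theorem ev {n : ℕ} (u : Fin n → ℂ_[2]) (g : Fin n → Ld.Py n) (P : Ld.Py n) :
    eval u (aeval g P) = eval (fun i => eval u (g i)) P :=
  eval₂Hom_bind₁ _ u g P

variable {K : Type} [Field K] [NumberField K] {ι : ℂ →+* ℂ_[2]} {J : K →+* ℂ}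
  {M : Type} [Field M] [NumberField M] [Algebra K M] {n : ℕ} {σ : Fin n → M →+* ℂ}
  {m a a' : ℕ} {t0 y e : M} {κ κ' : Type} [Fintype κ] [Fintype κ'] {r : κ → M} {r' : κ' → M}
  {ν : ℕ → M → ℂ_[2]} {B : ℝ}

variable (ι σ t0 ν a r) in
/-- Riemann sums -/
def rs : Ld.Fn n where
  toFun P := ∑ i, eval (sv ι σ (r i / t0)) P * ν a (r i)
  map_add' P Q := by simp only [map_add, add_mul, sum_add_distrib]
  map_smul' c P := by simp only [smul_eval, RingHom.id_apply, smul_eq_mul, mul_sum, mul_assoc]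

theorem fib (h : Rs ι J m a y r) (h' : Rs ι J m a' y r') (e : a ≤ a') (i : κ) :
    Rs ι J a a' (r i) fun j : {j // Fd ι J a (r' j - r i)} => r' j :=
  ⟨e, fun j => j.2, fun w hw => by
    obtain ⟨j, p, q⟩ := h'.ex w (fd_trans (fd_mono h.le hw) (h.mem i))
    exact ⟨⟨j, fd_trans (fd_symm (fd_mono e p)) hw⟩, p, fun k hk => Subtype.ext (q k hk)⟩⟩

theorem cau (hν : Mes ι J ν B) (h0 : Fd ι J 0 t0)
    (d : ∀ a y i, Fd ι J a y → ‖ι (σ i (y / t0))‖ ≤ (1 / 2) ^ a) (P : Ld.Py n) :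
    ∃ C : ℝ, 0 ≤ C ∧ ∀ (a a' : ℕ) (κ κ' : Type) [Fintype κ] [Fintype κ'] (r : κ → M) (r' : κ' → M),
      Rs ι J m a t0 r → Rs ι J m a' t0 r' → a ≤ a' →
      ‖rs ι σ a' t0 r' ν P - rs ι σ a t0 r ν P‖ ≤ C * (1 / 2) ^ a := by
  obtain ⟨C, c, h⟩ := lip P
  have b0 : 0 ≤ B := (norm_nonneg _).trans (hν.bd 0 _ h0)
  refine ⟨C * B, mul_nonneg c b0, fun a a' κ κ' _ _ r r' p q e => ?_⟩
  have f : ∀ {w : M}, Fd ι J m (w - t0) → Fd ι J 0 w := fun {w} k =>
    sub_add_cancel w t0 ▸ fd_add (fd_mono m.zero_le k) h0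
  choose g hg using fun j => p.ex _ (q.mem j)
  have s : rs ι σ a t0 r ν P = ∑ j, eval (sv ι σ (r (g j) / t0)) P * ν a' (r' j) := by
    rw [← Fintype.sum_fiberwise g]
    refine sum_congr rfl fun i _ => ?_
    rw [hν.dis a a' _ _ _ (f (p.mem i)) (fib p q e i), mul_sum]
    exact Fintype.sum_equiv (Equiv.subtypeEquivRight fun j =>
      ⟨fun k => ((hg j).2 i k).symm, fun k => k ▸ (hg j).1⟩) _ _ fun j =>
        congrArg (fun k => eval (sv ι σ (r k / t0)) P * ν a' (r' j)) ((hg j).2 i j.2)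
  rw [s, rs, LinearMap.coe_mk, AddHom.coe_mk, ← sum_sub_distrib]
  refine IsUltrametricDist.norm_sum_le_of_forall_le_of_nonneg (by positivity) fun j _ => ?_
  rw [← sub_mul, norm_mul, mul_right_comm]
  refine mul_le_mul ((h _ _ (fun i => ?_) fun i => ?_).2 _ (by positivity) fun i => ?_)
    (hν.bd _ _ (f (q.mem j))) (norm_nonneg _) (by positivity)
  · simpa [sv] using d 0 _ i (f (q.mem j))
  · simpa [sv] using d 0 _ i (f (p.mem _))
  · simpa only [sv, sub_div, map_sub] using d a _ i (hg j).1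

theorem half : Tendsto (fun a : ℕ => (1 / 2 : ℝ) ^ a) atTop (𝓝 0) :=
  tendsto_pow_atTop_nhds_zero_of_lt_one (by norm_num) (by norm_num)

theorem dil (h : Rs ι J m a t0 r) (he : Vi ι J e) (n0 : e ≠ 0) (hi : Vi ι J e⁻¹)
    (k : Fd ι J m (t0 * (e - 1))) : Rs ι J m a t0 fun i => r i / e := by
  refine ⟨h.le, fun i => ?_, fun w hw => ?_⟩
  · rw [show r i / e - t0 = e⁻¹ * (r i - t0 - t0 * (e - 1)) by field_simp; ring]
    exact fd_mul hi (fd_sub (h.mem i) k)
  · refine (existsUnique_congr fun i => ⟨fun p => ?_, fun p => ?_⟩).1 (h.ex (e * w) ?_)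
    · rw [show w - r i / e = e⁻¹ * (e * w - r i) by field_simp]
      exact fd_mul hi p
    · rw [show e * w - r i = e * (w - r i / e) by field_simp]
      exact fd_mul he p
    · rw [show e * w - t0 = e * (w - t0) + t0 * (e - 1) by ring]
      exact fd_add (fd_mul he hw) k

end Li

open Li

theorem lim (hE : EMB) (hD : DIF) : LIM := by
  intro K _ _ ι J π τ ψ h M _ _ _ n b hb σ hσ m t0 hm hg
  have hd := ((hD K ι J π τ ψ h M n b hb).2 t0 hg).2
  have h0 : Fd ι J 0 t0 := (hg.2 _).2 (by rw [div_self hg.1]; exact (Ov ι J M).one_mem)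
  have d : ∀ a y i, Fd ι J a y → ‖ι (σ i (y / t0))‖ ≤ (1 / 2) ^ a := fun a y i k => by
    have := ((hE K ι J M n b).2 σ hσ).2.2.2.2 _ ((hd a y).1 k) i
    rwa [map_div₀, map_div₀, norm_div, map_pow, map_pow, map_ofNat, map_ofNat, norm_pow, nm_two,
      div_le_one (by positivity)] at this
  choose κ fk r hr using fun a =>
    (dis K ι J π τ ψ h M n b hb).1 m (m + a) t0 le_self_add
  have f : ∀ {w : M}, Fd ι J m (w - t0) → Fd ι J 0 w := fun {w} k =>
    sub_add_cancel w t0 ▸ fd_add (fd_mono m.zero_le k) h0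
  have pw : ∀ a, (1 / 2 : ℝ) ^ (m + a) ≤ (1 / 2) ^ a := fun a =>
    pow_le_pow_of_le_one (by norm_num) (by norm_num) le_add_self
  refine ⟨fun ν B hν => ?_, fun ν L L' p q => LinearMap.ext fun P => ?_, fun ν ν' L e p P => ?_,
    fun ν ν' L L' u p q P => ?_, fun ν L T e p P => ?_, fun ν L e he p P => ?_⟩
  · have b0 : 0 ≤ B := (norm_nonneg _).trans (hν.bd 0 _ h0)
    have c : ∀ P, ∃ l, Tendsto (fun a => rs ι σ (m + a) t0 (r a) ν P) atTop (𝓝 l) := fun P => by
      obtain ⟨C, c, k⟩ := cau (m := m) hν h0 d P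
      refine cauchySeq_tendsto_of_complete (cauchySeq_of_le_tendsto_0'
        (fun a => C * (1 / 2) ^ a) (fun a a' e => ?_) (by simpa using half.const_mul C))
      rw [dist_comm, dist_eq_norm]
      exact (k _ _ _ _ _ _ (hr a) (hr a') (by omega)).trans (mul_le_mul_of_nonneg_left (pw a) c)
    choose l hl using c
    refine ⟨linearMapOfTendsto l (fun a => rs ι σ (m + a) t0 (r a) ν) (tendsto_pi_nhds.2 hl),
      fun P => ?_, fun β => ?_, ?_⟩
    · obtain ⟨C, c, k⟩ := cau (m := m) hν h0 d P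
      refine ⟨C, fun a κ' _ r' q => le_of_tendsto ((hl P).sub_const _).norm ?_⟩
      exact eventually_atTop.2 ⟨a, fun a' e => k _ _ _ _ _ _ q (hr a') (by omega)⟩
    · refine le_of_tendsto' (hl _).norm fun a => ?_
      refine IsUltrametricDist.norm_sum_le_of_forall_le_of_nonneg (by positivity) fun j _ => ?_
      rw [norm_mul, mul_comm B]
      refine mul_le_mul ?_ (hν.bd _ _ (f ((hr a).mem j))) (norm_nonneg _) (by positivity)
      rw [map_prod, norm_prod, pow_mul, ← prod_pow_eq_pow_sum]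
      refine prod_le_prod (fun _ _ => norm_nonneg _) fun i _ => ?_
      rw [map_pow, norm_pow]
      refine pow_le_pow_left₀ (norm_nonneg _) ?_ _
      have := d m _ i ((hr a).mem j)
      rw [sub_div, div_self hg.1] at this
      simpa only [map_sub, map_one, eval_X, sv] using this
    · refine tendsto_nhds_unique (hl 1) (tendsto_const_nhds.congr fun a => ?_)
      rw [hν.dis m _ _ _ _ h0 (hr a)]
      exact sum_congr rfl fun i _ => by rw [map_one, one_mul]
  · obtain ⟨C, p⟩ := p P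
    obtain ⟨D, q⟩ := q P
    refine eq_of_dist_eq_zero (dist_nonneg.antisymm' (ge_of_tendsto'
      (f := fun a => C * (1 / 2) ^ (a + m) + D * (1 / 2) ^ (a + m)) (x := atTop) ?_ fun a => ?_))
    · have := (tendsto_add_atTop_iff_nat m).2 half
      simpa using (this.const_mul C).add (this.const_mul D)
    · refine (dist_triangle_right _ _ (rs ι σ (m + a) t0 (r a) ν P)).trans ?_
      rw [add_comm a, dist_eq_norm, dist_eq_norm]
      exact add_le_add (p _ _ _ (hr a)) (q _ _ _ (hr a))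
  · obtain ⟨C, p⟩ := p P
    refine ⟨C, fun a κ' _ r' q => ?_⟩
    simpa only [fun i => e a _ q.le (q.mem i)] using p a κ' r' q
  · obtain ⟨C, p⟩ := p P
    obtain ⟨D, q⟩ := q P
    refine ⟨C + ‖u‖ * D, fun a κ' _ r' k => ?_⟩
    simp only [Pi.add_apply, Pi.smul_apply, LinearMap.add_apply, LinearMap.smul_apply, smul_eq_mul,
      mul_add, sum_add_distrib, mul_left_comm _ u, ← mul_sum]
    rw [add_sub_add_comm, ← mul_sub, add_mul, mul_assoc]
    refine norm_add_le_of_le (p a κ' r' k) ?_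
    rw [norm_mul]
    exact mul_le_mul_of_nonneg_left (q a κ' r' k) (norm_nonneg _)
  · obtain ⟨C, p⟩ := p (Ld.sh (sv ι σ (T / t0)) P)
    refine ⟨C, fun a κ' _ r' k => ?_⟩
    have := p a κ' _ (shift k (-T) (y' := t0) (by simpa using fd_sub fd_zero e))
    refine le_of_eq_of_le (congrArg (fun z => ‖_ - z‖) (sum_congr rfl fun i _ => ?_)) this
    rw [Ld.sh, ← sub_eq_add_neg, ev]
    refine congrArg (fun u => eval u P * _) (funext fun j => ?_)
    simp [sv, sub_div]
  · obtain ⟨C, p⟩ := p (Ld.dl (sv ι σ e) P)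
    refine ⟨C, fun a κ' _ r' k => ?_⟩
    obtain ⟨n0, hi⟩ := v1_unit hm he
    have := p a κ' _ (dil k (v1_mem he) n0 hi ((hd _ _).2 (by
      rwa [mul_div_cancel_left₀ _ hg.1])))
    refine le_of_eq_of_le (congrArg (fun z => ‖_ - z‖) (sum_congr rfl fun i _ => ?_)) this
    rw [Ld.dl, ev]
    refine congrArg (fun u => eval u P * _) (funext fun j => ?_)
    rw [map_mul, eval_C, eval_X, sv, sv, sv, ← map_mul, ← map_mul, ← mul_div_assoc,
      mul_div_cancel₀ _ n0]

end Vale.Agent.P004C.Ms
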