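import Vale.Agent.P004C.Ms.St
import Vale.Agent.P004C.Al.Gb0

/-!
# P004 C, block MEAS: the export for the leading term
-/

set_option linter.unusedSectionVars false

open NumberField Module Finset Algebra
open scoped Classical

noncomputable section

namespace Vale.Agent.P004C.Ms

open In An Al.Gx

namespace Lq

variable {K : Type} [Field K] [NumberField K] {ι : ℂ →+* ℂ_[2]} {J : K →+* ℂ}
  {M : Type} [Field M] [NumberField M] [Algebra K M] {n m a : ℕ} {y y' t0 : M} {ψ : K → ℂ}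
  {σ : Fin n → M →+* ℂ} {h h' : M → ℂ} {L L' : Ld.Fn n}

theorem fd_add (p : Fd ι J a y) (q : Fd ι J a y') : Fd ι J a (y + y') := fun x v => by
  rw [mul_add, map_add, map_add, map_add]
  exact (IsUltrametricDist.norm_add_le_max _ _).trans (max_le (p x v) (q x v))

theorem fd_mul {e : M} (v : e ∈ Ov ι J M) (p : Fd ι J a y) : Fd ι J a (e * y) := fun x w => by
  rw [← mul_assoc]
  exact p _ (mul_mem (mem_Ov.2 w) v)

theorem fd_sub (p : Fd ι J a y) (q : Fd ι J a y') : Fd ι J a (y - y') := by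
  rw [sub_eq_add_neg, ← neg_one_mul]
  exact fd_add p (fd_mul (neg_mem (one_mem _)) q)

theorem fd_zero (p : Fd ι J a y) : Fd ι J 0 y := fun x v =>
  (p x v).trans (pow_le_pow_of_le_one (by norm_num) (by norm_num) a.zero_le)

variable (ι J) in
/-- the masses of a density -/
def nv (ψ : K → ℂ) (n : ℕ) (h : M → ℂ) (a : ℕ) (y : M) : ℂ_[2] :=
  ι (rg fun x => h x * (EE ι J ψ a y x / 2 ^ (a * n)))

variable (ι J) in
/-- the regularised sums exist -/
def Ok (ψ : K → ℂ) (n : ℕ) (h : M → ℂ) : Prop := ∀ a y, Fd ι J 0 y →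
  Reg (fun x => h x * (EE ι J ψ a y x / 2 ^ (a * n))) (rg fun x => h x * (EE ι J ψ a y x / 2 ^ (a * n)))

variable (ι J) in
/-- `L` is the functional of the density `h` -/
def Rq (ψ : K → ℂ) (σ : Fin n → M →+* ℂ) (m : ℕ) (t0 : M) (h : M → ℂ) (L : Ld.Fn n) : Prop :=
  Ok ι J ψ n h ∧ It ι J σ (nv ι J ψ n h) m t0 L

variable (ι J) in
/-- what is used -/
structure Cx (ψ : K → ℂ) (σ : Fin n → M →+* ℂ) (m : ℕ) (t0 : M) : Prop where
  ex : ∀ ν B, Mes ι J ν B → ∃ L, It ι J σ ν m t0 L ∧ Ld.Bn m B L ∧ L 1 = ν m t0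
  uq : ∀ ν L L', It ι J σ ν m t0 L → It ι J σ ν m t0 L' → L = L'
  cg : ∀ ν ν' L, (∀ a y, m ≤ a → Fd ι J m (y - t0) → ν' a y = ν a y) → It ι J σ ν m t0 L →
    It ι J σ ν' m t0 L
  ad : ∀ ν ν' L L' (u : ℂ_[2]), It ι J σ ν m t0 L → It ι J σ ν' m t0 L' →
    It ι J σ (ν + u • ν') m t0 (L + u • L')
  sh : ∀ ν L (T : M), Fd ι J m T → It ι J σ ν m t0 L →
    It ι J σ (fun a y => ν a (y - T)) m t0 (L ∘ₗ (Ld.sh (sv ι σ (T / t0))).toLinearMap)
  dl : ∀ ν L (e : M), V1 ι J m e → It ι J σ ν m t0 L →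
    It ι J σ (fun a y => ν a (y / e)) m t0 (L ∘ₗ (Ld.dl (sv ι σ e)).toLinearMap)
  ds : ∀ m a (y : M) (κ : Type) [Fintype κ] (r : κ → M), Rs ι J m a y r → ∀ x,
    EE ι J ψ m y x / 2 ^ (m * n) = ∑ i, EE ι J ψ a (r i) x / 2 ^ (a * n)
  add : ∀ x y, ψ (x + y) = ψ x * ψ y
  t0 : Fd ι J 0 t0
  m0 : 1 ≤ m

theorem ok_of (k : ∀ a y, Fd ι J 0 y →
    ∃ r, Reg (fun x => h x * (EE ι J ψ a y x / 2 ^ (a * n))) r) : Ok ι J ψ n h := fun a y p => by
  obtain ⟨r, k⟩ := k a y p
  rwa [k.rg_eq]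

theorem EE_sh (c : Cx ι J ψ σ m t0) (T x : M) :
    EE ι J ψ a (y - T) x = EE ι J ψ a y x * ψ (trace K M (T * x)) := by
  unfold EE
  split_ifs
  · rw [← c.add, mul_sub, map_sub, mul_comm T, neg_sub, sub_eq_neg_add]
  · rw [zero_mul]

theorem EE_dl {e : M} (e0 : e ≠ 0) (e1 : e ∈ Ov ι J M) (e2 : e⁻¹ ∈ Ov ι J M) (x : M) :
    EE ι J ψ a (y / e) (e * x) = EE ι J ψ a y x := by
  have k : Vi ι J (2 ^ a * (e * x)) ↔ Vi ι J (2 ^ a * x) := ⟨fun p => by
    have := mul_mem e2 (mem_Ov.2 p)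
    rwa [mul_left_comm, inv_mul_cancel_left₀ e0] at this, fun p => by
    rw [mul_left_comm]
    exact mul_mem e1 (mem_Ov.2 p)⟩
  unfold EE
  rw [k, show e * x * (y / e) = x * y by field_simp]

namespace Cx

variable (c : Cx ι J ψ σ m t0)
include c

theorem cg' {ν ν' : ℕ → M → ℂ_[2]} (e : ∀ a y, Fd ι J 0 y → ν' a y = ν a y)
    (k : It ι J σ ν m t0 L) : It ι J σ ν' m t0 L :=
  c.cg ν ν' L (fun a y _ p => e a y (by simpa using fd_add (fd_zero p) c.t0)) k

theorem zero : Rq ι J ψ σ m t0 (fun _ => 0) 0 := by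
  have z : ∀ a (y : M), Reg (fun x => (0 : ℂ) * (EE ι J ψ a y x / 2 ^ (a * n))) 0 :=
    fun a y => Reg.zero.congr (fun x => by simp) rfl
  refine ⟨ok_of fun a y _ => ⟨_, z a y⟩, fun P => ⟨0, fun a κ _ r _ => ?_⟩⟩
  simp only [nv, (z _ _).rg_eq]
  simp

theorem lin (p : Rq ι J ψ σ m t0 h L) (q : Rq ι J ψ σ m t0 h' L') (u : ℂ) :
    Rq ι J ψ σ m t0 (fun x => h x + u * h' x) (L + ι u • L') := by
  have z := fun a y (f : Fd ι J 0 y) => ((p.1 a y f).add ((q.1 a y f).smul u)).congr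
    (g' := fun x => (h x + u * h' x) * (EE ι J ψ a y x / 2 ^ (a * n))) (fun x => by ring) rfl
  refine ⟨ok_of fun a y f => ⟨_, z a y f⟩, c.cg' (fun a y f => ?_) (c.ad _ _ _ _ (ι u) p.2 q.2)⟩
  simp only [nv, (z a y f).rg_eq, map_add, map_mul, Pi.add_apply, Pi.smul_apply, smul_eq_mul]

theorem sum {κ : Type} (s : Finset κ) {h : κ → M → ℂ} {L : κ → Ld.Fn n} (u : κ → ℂ)
    (p : ∀ i, Rq ι J ψ σ m t0 (h i) (L i)) :
    Rq ι J ψ σ m t0 (fun x => ∑ i ∈ s, u i * h i x) (∑ i ∈ s, ι (u i) • L i) := by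
  induction s using Finset.induction_on with
  | empty => simpa using c.zero
  | insert i s k ih => simpa only [sum_insert k, add_comm] using c.lin ih (p i) (u i)

theorem step (p : Rq ι J ψ σ m t0 h L) {T : M} (f : Fd ι J m T) :
    Rq ι J ψ σ m t0 (fun x => h x * (ψ (trace K M (T * x)) - 1))
      (L ∘ₗ Ld.df (sv ι σ (T / t0))) := by
  have e : ∀ a y, (fun x => h x * ψ (trace K M (T * x)) * (EE ι J ψ a y x / 2 ^ (a * n))) =
      fun x => h x * (EE ι J ψ a (y - T) x / 2 ^ (a * n)) := fun a y => funext fun x => by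
    rw [EE_sh c]
    ring
  have q : Rq ι J ψ σ m t0 (fun x => h x * ψ (trace K M (T * x)))
      (L ∘ₗ (Ld.sh (sv ι σ (T / t0))).toLinearMap) :=
    ⟨fun a y g => by
      rw [e]
      exact p.1 a _ (fd_sub g (fd_zero f)), c.cg' (fun a y _ => by
      unfold nv
      rw [e]) (c.sh _ _ T f p.2)⟩
  have r := c.lin q p (-1)
  rw [show (fun x => h x * (ψ (trace K M (T * x)) - 1)) =
    fun x => h x * ψ (trace K M (T * x)) + -1 * h x from funext fun x => by ring]
  rwa [Ld.df, LinearMap.comp_sub, Module.End.one_eq_id, LinearMap.comp_id, sub_eq_add_neg,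
    ← neg_one_smul ℂ_[2] L, ← map_one ι, ← map_neg]

theorem lst (l : List M) (f : ∀ T ∈ l, Fd ι J m T) {h : M → ℂ} {L : Ld.Fn n}
    (p : Rq ι J ψ σ m t0 h L) :
    Rq ι J ψ σ m t0 (fun x => h x * (l.map fun T => ψ (trace K M (T * x)) - 1).prod)
      (L ∘ₗ (l.map fun T => Ld.df (sv ι σ (T / t0))).prod) := by
  induction l generalizing h L with
  | nil => simpa [Module.End.one_eq_id] using p
  | cons T l ih =>
    have := ih (fun T k => f T (List.mem_cons_of_mem _ k)) (c.step p (f T List.mem_cons_self))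
    simpa only [List.map_cons, List.prod_cons, mul_assoc, Module.End.mul_eq_comp,
      LinearMap.comp_assoc] using this

theorem dil (p : Rq ι J ψ σ m t0 h L) {e : M} (v : V1 ι J m e) :
    Rq ι J ψ σ m t0 (fun x => h (e * x)) (L ∘ₗ (Ld.dl (sv ι σ e)).toLinearMap) := by
  obtain ⟨e0, e2⟩ := v1_unit c.m0 v
  have k : ∀ a y, (fun x => h (e * x) * (EE ι J ψ a y x / 2 ^ (a * n))) = fun x =>
      (fun x => h x * (EE ι J ψ a (y / e) x / 2 ^ (a * n))) (AddAut.mulLeft (Units.mk0 e e0) x) :=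
    fun a y => funext fun x => by
      rw [← EE_dl (y := y) e0 (v1_mem v) e2 x]
      rfl
  refine ⟨ok_of fun a y f => ⟨_, by
    rw [k]
    exact (p.1 a _ (by rw [div_eq_inv_mul]; exact fd_mul e2 f)).comp _⟩,
    c.cg' (fun a y _ => ?_) (c.dl _ _ e v p.2)⟩
  unfold nv
  rw [k]
  exact congrArg ι (rg_comp (fun x => h x * (EE ι J ψ a (y / e) x / 2 ^ (a * n))) _)

theorem mes {B : ℝ} (o : Ok ι J ψ n h) (b : ∀ a y, Fd ι J 0 y → ‖nv ι J ψ n h a y‖ ≤ B) :
    ∃ L, Rq ι J ψ σ m t0 h L ∧ Ld.Bn m B L ∧ L 1 = nv ι J ψ n h m t0 := by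
  obtain ⟨L, p, q⟩ := c.ex (nv ι J ψ n h) B ⟨b, fun m a y κ _ r f R => by
    have z := (Reg.sum univ fun i _ => o a (r i) (by simpa using fd_add (fd_zero (R.mem i)) f)).congr
      (g' := fun x => h x * (EE ι J ψ m y x / 2 ^ (m * n)))
      (fun x => by rw [c.ds m a y κ r R x, mul_sum]) rfl
    simp only [nv, z.rg_eq, map_sum]⟩
  exact ⟨L, ⟨o, p⟩, q⟩

end Cx

/-- the density -/
def hd (J : K →+* ℂ) (b : Basis (Fin n) K M) (T : Fin n → M) (ρ : K → ℂ) (φ : M → ℂ) (x : M) : ℂ :=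
  φ x * (J (dt b T) * ∏ j, ρ (trace K M (T j * x)))

theorem ms_eq (b : Basis (Fin n) K M) (T : Fin n → M) (ρ : K → ℂ) (φ : M → ℂ) (a : ℕ) (y : M) :
    ms ι J ψ b T (fun _ => ρ) φ a y =
      fun x => hd J b T ρ φ x * (EE ι J ψ a y x / 2 ^ (a * n)) := funext fun x => by
  unfold ms hd
  ring

theorem rh_mul {ω : ℂ} (o : ω ≠ 0) (p : ψ 0 = 1) (z : K) :
    ψ z - 1 = ω * J z * rh J ψ ω 1 z := by
  unfold rh
  split_ifs with k
  · simp [k, p]
  · rw [one_mul, mul_div_cancel₀ _ (mul_ne_zero o ((map_ne_zero J).2 k))]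

theorem tr_two (k : ℕ) (x : M) : trace K M (2 ^ k * x) = 2 ^ k * trace K M x := by
  rw [← smul_eq_mul (2 ^ k : K), ← map_smul, Algebra.smul_def, map_pow, map_ofNat]

theorem tr_rep (b : Basis (Fin n) K M) (T x : M) :
    trace K M (T * x) = ∑ k, trace K M (T * b k) * b.repr x k := by
  conv_lhs => rw [← b.sum_repr x]
  simp only [mul_sum, map_sum, mul_smul_comm, map_smul, smul_eq_mul, mul_comm]

theorem adm_two {c : Ideal (𝓞 M)} {T : Fin n → M} (k : ℕ) (p : Adm K c T) :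
    Adm K c fun j => 2 ^ k * T j := by
  refine p.imp (fun q r => q ?_) fun q j => (q j).imp fun d r => ⟨r.1, fun i s => by
    rw [mul_assoc, tr_two, r.2 i s, mul_zero]⟩
  have := r.units_smul fun _ => (Units.mk0 (2 ^ k : K) (pow_ne_zero _ two_ne_zero))⁻¹
  refine (congrArg (fun v : Fin n → M => LinearIndependent K v) (funext fun j => ?_)).mp this
  rw [Pi.smul_apply', Units.smul_def]
  simp [Algebra.smul_def, map_ofNat]

end Lq

open Lq in
theorem lms (hE : EMB) (hD : DIF) (hS : DIS) (hN : PRN) (hP : PRM) (hR : RSM) (hL : LIM) : LMS := by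
  intro K _ _ ι J Ω π τ ψ ω O M _ _ _ n b hb σ hσ c l hc m t0 hm ht
  obtain ⟨l1, l2, l3, l4, l5, l6⟩ := hL K ι J π τ ψ O.toAr M n b hb σ hσ m t0 hm ht
  obtain ⟨s1, s2⟩ := hS K ι J π τ ψ O.toAr M n b hb
  obtain ⟨-, d2⟩ := (hD K ι J π τ ψ O.toAr M n b hb).2 t0 ht
  obtain ⟨-, -, e3, -, -⟩ := (hE K ι J M n b).2 σ hσ
  have t1 : Fd ι J 0 t0 := (ht.2 _).2 (by rw [div_self ht.1]; exact one_mem (Ov ι J M))
  have C : Cx ι J ψ σ m t0 := ⟨l1, l2, l3, l4, l5, l6, s2, O.add, t1, hm⟩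
  have p0 : ψ 0 = 1 := (O.ker 0).2 (by simp)
  have two : (2 : M) ^ m ≠ 0 := pow_ne_zero _ two_ne_zero
  have q1 : ∀ t : M, 2 ^ m * (t0 * t) / t0 = 2 ^ m * t := fun t => by field_simp [ht.1]
  have f1 : ∀ t, V1 ι J m t → Fd ι J m (2 ^ m * (t0 * t)) := fun t v => (d2 _ _).2 (by
    rw [q1, mul_div_cancel_left₀ _ two]
    exact v1_mem v)
  have q2 : ∀ t : M, sv ι σ (2 ^ m * (t0 * t) / t0) = (2 : ℂ_[2]) ^ m • sv ι σ t := fun t =>
    funext fun i => by simp [q1, sv, map_ofNat]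
  have q3 : ∀ (T : Fin n → M) (e : M), J (dt b fun j => e * T j) = (∏ i, σ i e) * J (dt b T) :=
    fun T e => by
      rw [e3, e3, mul_left_comm, ← Matrix.det_mul_row]
      simp only [map_mul]
      rfl
  let H := fun (t : Fin n → M) φ => hd J b (fun j => 2 ^ m * (t0 * t j)) (rh J ψ ω 1) φ
  let nu := fun t φ => if k : ∃ L, Rq ι J ψ σ m t0 (H t φ) L then k.choose else 0
  have uq : ∀ t φ L, Rq ι J ψ σ m t0 (H t φ) L → nu t φ = L := fun t φ L p => by
    have k : ∃ L, Rq ι J ψ σ m t0 (H t φ) L := ⟨L, p⟩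
    simp only [nu, dif_pos k]
    exact l2 _ _ _ k.choose_spec.2 p.2
  have ex : ∀ t φ B, (∀ j, V1 ι J m (t j)) → Adm K c (fun j => t0 * t j) → Tf ι π c l φ →
      (∀ x, ‖ι (φ x)‖ ≤ B) → Rq ι J ψ σ m t0 (H t φ) (nu t φ) ∧ Ld.Bn m B (nu t φ) ∧
        nu t φ 1 = nv ι J ψ n (H t φ) m t0 := fun t φ B v a f g => by
    have k := hN K ι J Ω π τ ψ ω O M n b hb c l hc _ φ B f (adm_two m a)
      (fun j => fd_zero (f1 _ (v j))) g
    simp only [ms_eq] at k
    obtain ⟨L, p⟩ := C.mes (h := H t φ) (B := B) (ok_of fun a y f => (k a y f).imp fun _ r => r.1)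
      fun a y f => by
        obtain ⟨r, p, q⟩ := k a y f
        unfold nv
        rwa [p.rg_eq]
    rwa [uq t φ L p.1]
  have ex' := fun t φ v a (f : Tf ι π c l φ) => ex t φ _ v a f f.bdd.choose_spec
  refine ⟨nu, fun t φ φ' v a f f' => uq _ _ _ ?_, fun t φ B v a f g => (ex t φ B v a f g).2.1,
    fun t φ e v a f w => uq _ _ _ ?_, fun t φ v a f => ?_, fun t φ v a f => ?_,
    fun t φ B v a f g G => ?_⟩
  · have := C.lin (ex' t φ v a f).1 (ex' t φ' v a f').1 1
    rw [map_one, one_smul] at this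
    refine (congrArg (Rq ι J ψ σ m t0 · _) (funext fun x => ?_)).mp this
    simp only [H, hd, Pi.add_apply]
    ring
  · have := C.lin C.zero (C.dil (ex' t φ v a f).1 w) (∏ i, σ i e)
    rw [zero_add, map_prod] at this
    refine (congrArg (Rq ι J ψ σ m t0 · _) (funext fun x => ?_)).mp this
    have k : ∀ t : M, 2 ^ m * (t0 * (e * t)) = e * (2 ^ m * (t0 * t)) := fun t => by ring
    simp only [H, hd, k, q3, mul_assoc e, mul_left_comm _ e x]
    ring
  · have := C.sum univ (fun i : Fin (n + 1) => (-1) ^ (i : ℕ)) fun i =>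
      C.step (ex' (fun j => t (i.succAbove j)) φ (fun _ => v _) (a i) f).1 (f1 _ (v i))
    refine Eq.trans ?_ (l2 _ _ _ this.2 ((congrArg (Rq ι J ψ σ m t0 · _)
      (funext fun x => ?_)).mp C.zero).2)
    · refine sum_congr rfl fun i _ => ?_
      rw [q2, ← Int.cast_smul_eq_zsmul ℂ_[2]]
      simp
    · have k := congrArg J (An.cramer (b.repr x)
        fun i k => trace K M (2 ^ m * (t0 * t i) * b k))
      simp only [← tr_rep, map_sum, map_mul, map_pow, map_neg, map_one, map_zero] at k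
      rw [← mul_zero (φ x * ω *
        ∏ j, rh J ψ ω 1 (trace K M (2 ^ m * (t0 * t j) * x))), ← k, mul_sum]
      refine sum_congr rfl fun i _ => ?_
      rw [rh_mul O.o0 p0, Fin.prod_univ_succAbove _ i]
      simp only [H, hd, dt]
      ring
  · have z : HasSum (fun x => H t φ x * (EE ι J ψ m t0 x / 2 ^ (m * n)))
        (H t φ 0 * (EE ι J ψ m t0 0 / 2 ^ (m * n))) := hasSum_single 0 fun x x0 => by
      by_cases w : Vi ι J (2 ^ m * x)
      · by_contra k
        have k := left_ne_zero_of_mul k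
        have k2 := right_ne_zero_of_mul k
        have k3 : ∀ j, trace K M (2 ^ m * (t0 * t j) * x) = 0 := fun j => by
          by_contra u
          refine prod_ne_zero_iff.1 (right_ne_zero_of_mul k2) j (mem_univ _) ?_
          rw [rh, if_neg u, one_mul, (O.ker _).2, sub_self, zero_div]
          simpa [show t j * (2 ^ m * x) * t0 = 2 ^ m * (t0 * t j) * x by ring] using
            t1 _ (mul_mem (v1_mem (v j)) (mem_Ov.2 w))
        refine x0 (b.repr.map_eq_zero_iff.1 (DFunLike.ext' (Matrix.eq_zero_of_mulVec_eq_zero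
          ((map_ne_zero J).1 (left_ne_zero_of_mul k2)) (funext fun j => ?_))))
        exact (tr_rep b _ x).symm.trans (k3 j)
      · simp [EE, w]
    rw [(ex' t φ v a f).2.2, nv, (Reg.of_hasSum z).rg_eq]
    have w : Vi ι J (0 : M) := zero_mem (Ov ι J M)
    simp only [H, hd, EE, rh, q3, e3, mul_zero, zero_mul, map_zero, neg_zero, p0, w, if_true, map_one,
      prod_const_one, mul_one, hσ.nm, map_mul, map_pow, map_ofNat, prod_const, card_univ,
      Fintype.card_fin, map_div₀, RingHom.map_det, ← pow_mul]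
    have : ι.mapMatrix (Matrix.of fun j i => σ i (t j)) = Matrix.of fun j => sv ι σ (t j) := rfl
    rw [this]
    field_simp
  · obtain ⟨k1, k2⟩ := hP K ι J Ω π τ ψ ω O M n b hb c l hc _ φ B f a G g
    obtain ⟨_, k3⟩ := k2 fun _ => 0
    simp only [ms_eq] at k1 k3
    obtain ⟨μ, p, q, -⟩ := C.mes (ok_of fun a y f => (k3 a y f).1) k1
    refine ⟨μ, q, uq _ _ _ ?_, fun k k0 => ?_⟩
    · have := C.lst (List.ofFn fun j => 2 ^ m * (t0 * t j))
        (fun T w => by
          obtain ⟨j, rfl⟩ := List.mem_ofFn.1 w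
          exact f1 _ (v j)) p
      simp only [List.map_ofFn, Function.comp_def, q2, List.prod_ofFn (M := ℂ)] at this
      refine (congrArg (Rq ι J ψ σ m t0 · _) (funext fun x => ?_)).mp this
      by_cases z : φ x = 0
      · simp [H, hd, z]
      obtain ⟨N, -, G⟩ := G
      have u : ∀ j, J (trace K M (t0 * t j * x)) ≠ 0 := fun j w => G j x z ⟨0, by
        simp [(map_eq_zero J).1 w, isIntegral_zero]⟩
      have o := O.o0
      simp only [H, hd, q3 (fun j => t0 * t j), mul_assoc (φ x),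
        mul_assoc (J _), ← prod_mul_distrib, mul_comm (∏ _i, _) (J (dt b _))]
      congr 2
      refine prod_congr rfl fun j _ => ?_
      have := u j
      rw [rh_mul O.o0 p0]
      simp only [pw, mul_assoc ((2 : M) ^ m), tr_two, map_mul, map_pow, map_ofNat]
      field_simp
      simp
    · obtain ⟨C1, r⟩ := hR K ι J Ω π τ ψ ω O M n b hb σ hσ c l hc _ φ f a G k k0
      obtain ⟨z, r1, r2⟩ := r m t0 t1
      obtain ⟨C2, r3⟩ := p.2 (∏ i, MvPolynomial.X i ^ (k - 1))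
      refine ⟨z, r1, ?_⟩
      set A := ι (J (Algebra.norm K t0)) ^ (k - 1) with hA
      have A0 : A ≠ 0 := pow_ne_zero _ (by simpa using ht.1)
      have o : ι ω ≠ 0 := by simpa using O.o0
      have : ι (kp b σ) * ((k - 1).factorial : ℂ_[2]) ^ n * ι z / (ι ω ^ (n * k) * 2 ^ (m * n)) =
          A * μ (∏ i, MvPolynomial.X i ^ (k - 1)) := by
        refine eq_of_sub_eq_zero (norm_le_zero_iff.1 (ge_of_tendsto (x := Filter.atTop)
          (f := fun a : ℕ => (C1 + ‖A‖ * C2) * (1 / 2) ^ a) ?_ ?_))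
        · simpa using (tendsto_pow_atTop_nhds_zero_of_lt_one (r := (1 / 2 : ℝ)) (by norm_num)
            (by norm_num)).const_mul (C1 + ‖A‖ * C2)
        · filter_upwards [Filter.eventually_ge_atTop m] with a ha
          obtain ⟨κ, _, r, R⟩ := s1 m a t0 ha
          have u1 := r2 a κ r R
          have u2 := mul_le_mul_of_nonneg_left (r3 a κ r R) (norm_nonneg A)
          rw [← norm_mul, mul_sub, mul_sum] at u2
          simp only [ms_eq] at u1
          rw [sum_congr rfl fun i _ => show A * (MvPolynomial.eval (sv ι σ (r i / t0))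
            (∏ i, MvPolynomial.X i ^ (k - 1)) * _) = ι (J (Algebra.norm K (r i))) ^ (k - 1) * _ by
              rw [← mul_assoc]
              congr 1
              simp only [map_prod, map_pow, MvPolynomial.eval_X, sv, prod_pow, hA]
              rw [← map_prod, hσ.nm, ← mul_pow, ← map_mul, ← map_mul, ← map_mul,
                mul_div_cancel₀ _ ht.1]] at u2
          rw [← sub_sub_sub_cancel_right, add_mul, mul_assoc ‖A‖]
          exact (norm_sub_le _ _).trans (add_le_add u1 u2)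
      rw [div_eq_iff (mul_ne_zero (pow_ne_zero _ o) (pow_ne_zero _ two_ne_zero))] at this
      rw [this]
      ring

end Vale.Agent.P004C.Ms
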