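import Vale.Agent.P004C.Ms.Tfc

/-!
# P004 C, block MEAS: adapted frames exist (row TST)
-/

set_option linter.unusedSectionVars false

open NumberField Module Finset Algebra
open scoped Classical

noncomputable section

namespace Vale.Agent.P004C.Ms

open Al.Gx

namespace Tc

variable {K : Type} [Field K] [NumberField K]
  {M : Type} [Field M] [NumberField M] [Algebra K M] {n : ℕ}

/-- a vector which is orthogonal to a basis vanishes -/
theorem tr_zero (hn : finrank K M = n) {T : Fin n → M} (k : LinearIndependent K T) {y : M}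
    (h : ∀ i, trace K M (T i * y) = 0) : y = 0 := by
  have := Module.Finite.of_restrictScalars_finite ℚ K M
  let b := basisOfLinearIndependentOfCardEqFinrank' T k (by simp [hn])
  have hb : ∀ i, b i = T i := fun i => by simp [b]
  refine b.traceDual.repr.injective (Finsupp.ext fun i => ?_)
  rw [map_zero, b.traceDual_repr_apply, traceForm_apply, mul_comm, hb, h]
  rfl

/-- a family which is dual to another one is a basis -/
theorem ex_basis (hn : finrank K M = n) {T d : Fin n → M} (h0 : ∀ j, trace K M (T j * d j) ≠ 0)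
    (h : ∀ j i, i ≠ j → trace K M (T i * d j) = 0) : ∃ b : Basis (Fin n) K M, (∀ j, b j = d j) ∧
      ∀ j x, trace K M (T j * x) = trace K M (T j * d j) * b.repr x j := by
  have := Module.Finite.of_restrictScalars_finite ℚ K M
  have key : ∀ (g : Fin n → K) j,
      trace K M (T j * ∑ i, g i • d i) = trace K M (T j * d j) * g j := fun g j => by
    rw [mul_sum, map_sum, sum_eq_single j, mul_smul_comm, map_smul, smul_eq_mul, mul_comm]
    · intro i _ hi
      rw [mul_smul_comm, map_smul, h i j hi.symm, smul_zero]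
    · simp
  have li : LinearIndependent K d := Fintype.linearIndependent_iff.2 fun g e j => by
    have := key g j
    rw [e, mul_zero, map_zero] at this
    exact (mul_eq_zero.1 this.symm).resolve_left (h0 j)
  let b := basisOfLinearIndependentOfCardEqFinrank' d li (by simp [hn])
  have hb : ∀ i, b i = d i := fun i => by simp [b]
  refine ⟨b, hb, fun j x => ?_⟩
  rw [← key]
  simp only [← hb]
  rw [b.sum_repr]

theorem dt_det (b d : Basis (Fin n) K M) (T : Fin n → M)
    (h : ∀ j i, i ≠ j → trace K M (T i * d j) = 0) :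
    dt b T * b.det d = ∏ j, trace K M (T j * d j) := by
  rw [dt, Basis.det_apply, ← Matrix.det_mul, ← Matrix.det_diagonal]
  refine congrArg Matrix.det (Matrix.ext fun j k => ?_)
  have e : ∑ i, trace K M (T j * b i) * b.repr (d k) i = trace K M (T j * d k) := by
    conv_rhs => rw [← b.sum_repr (d k), mul_sum, map_sum]
    exact sum_congr rfl fun i _ => by rw [mul_smul_comm, map_smul, smul_eq_mul, mul_comm]
  refine e.trans ?_
  by_cases m : j = k
  · rw [m, Matrix.diagonal_apply_eq]
  · rw [Matrix.diagonal_apply_ne _ m, h k j m]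

end Tc

open Tc in
/-- row TST -/
theorem tst : TST := by
  intro K _ _ ι J π M _ _ _ n b c l h T φ hφ hA hT
  have hn : finrank K M = n := by simpa using finrank_eq_card_basis b
  obtain ⟨N, p0, p1, p2, p3⟩ := hφ.lev
  choose d0 hd0 o0 using hA.resolve_left (not_not.2 hT)
  have a0 : ∀ j, trace K M (T j * d0 j) ≠ 0 := fun j e => hd0 j (by
    have : (d0 j : M) = 0 := tr_zero hn hT fun i => by
      by_cases m : i = j
      · rw [m, e]
      · exact o0 j i m
    rw [RingOfIntegers.ext (x := d0 j) (y := 0) this]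
    exact c.zero_mem)
  obtain ⟨N', q0, q1⟩ : ∃ N' : ℕ, N'.Coprime l ∧ (Good π l T φ →
      ∀ j x, φ x ≠ 0 → ¬ Ow (π * (l : 𝓞 K)) (trace K M (T j * x) / N')) := by
    by_cases g : Good π l T φ
    · obtain ⟨N', a, b⟩ := g
      exact ⟨N', a, fun _ => b⟩
    · exact ⟨1, by simp, fun k => (g k).elim⟩
  obtain ⟨D, D0, hD⟩ := ex_den fun j => trace K M (T j * d0 j)
  obtain ⟨k, m, hm, rfl⟩ := Nat.exists_eq_pow_mul_and_not_dvd D0 l h.1.ne_one
  have m0 : m.Coprime l := ((Nat.Prime.coprime_iff_not_dvd h.1).2 hm).symm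
  have r0 : (N' * m).Coprime l := Nat.Coprime.mul_left q0 m0
  have R0 : ((N * l * (N' * m) : ℕ) : K) ≠ 0 :=
    Nat.cast_ne_zero.2 (mul_ne_zero (mul_ne_zero (ne0 h p0) h.1.ne_zero) (ne0 h r0))
  have l0 : (l : M) ≠ 0 := Nat.cast_ne_zero.2 h.1.ne_zero
  have tw : ∀ i j, trace K M (T i * (((N * l * (N' * m) : ℕ) : M) * d0 j)) =
      ((N * l * (N' * m) : ℕ) : K) * trace K M (T i * d0 j) := fun i j => by
    rw [mul_left_comm, ← nsmul_eq_mul, map_nsmul, nsmul_eq_mul]
  obtain ⟨d, hd, hr⟩ := ex_basis hn (T := T) (d := fun j => ((N * l * (N' * m) : ℕ) : M) * d0 j)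
    (fun j => by rw [tw]; exact mul_ne_zero R0 (a0 j))
    (fun j i hi => by rw [tw, o0 j i hi, mul_zero])
  have w0 : ∀ j, trace K M (T j * d j) ≠ 0 := fun j => by
    rw [hd, tw]; exact mul_ne_zero R0 (a0 j)
  have hr' : ∀ j x, trace K M (T j * x) = trace K M (T j * d j) * d.repr x j := fun j x => by
    rw [hd]; exact hr j x
  refine ⟨d, fun j => trace K M (T j * d j), ⟨h.1.odd_of_ne_two h.2.1, fun j => ?_,
    fun j o x ho => ?_, fun j x => ?_, ?_⟩, fun j => ⟨w0 j, hr' j⟩,
    dt_det b d T fun j i hi => by rw [hd, tw, o0 j i hi, mul_zero], fun g x j hx => ?_⟩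
  · refine ⟨1, by simp, ?_⟩
    rw [hd]
    exact (int_s 1).mul ((int_nat _).mul (d0 j).isIntegral_coe)
  · refine Eq.trans (congrArg φ ?_) (p2 x (l * ((N' * m : ℕ) * d0 j)) (algebraMap K M o)
      (c.mul_mem_right _ (sm_mem h)) (ow_map ho))
    rw [hd, Algebra.smul_def]
    push_cast
    ring
  · refine Eq.trans (sum_congr rfl fun s _ => congrArg φ ?_)
      (p3 x ((N' * m : ℕ) * d0 j) (sm_mul h (sm_nat h r0) (hd0 j)))
    rw [hd, Algebra.smul_def]
    push_cast
    field_simp
  · obtain ⟨E, E0, hE⟩ := ex_den fun j => algebraMap K M (trace K M (T j * d j))⁻¹ * T j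
    refine ⟨E * N, mul_ne_zero E0 (ne0 h p0), fun x i hx => ?_⟩
    have e : (E : M) * (algebraMap K M (trace K M (T i * d i))⁻¹ * T i) * (N * x) =
        (((E * N : ℕ) : K) * (trace K M (T i * d i))⁻¹) • (T i * x) := by
      rw [Algebra.smul_def]
      push_cast
      ring
    have := ow_tr (K := K) (ow_mul (ow_int (hE i)) (p1 x hx))
    rwa [e, map_smul, hr' i x, smul_eq_mul, mul_assoc, inv_mul_cancel_left₀ (w0 i)] at this
  · rintro ⟨a, ha⟩
    refine q1 g j x hx ⟨a + k, ?_⟩
    have n0 : (N' : K) ≠ 0 := Nat.cast_ne_zero.2 (ne0 h q0)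
    have e : algebraMap K K (π * (l : 𝓞 K) : 𝓞 K) ^ (a + k) * (trace K M (T j * x) / N') =
        algebraMap K K π ^ a * (l * d.repr x j) * (((l ^ k * m : ℕ) : K) * trace K M (T j * d0 j)) *
          (((N * l ^ a : ℕ) : K) * algebraMap K K π ^ k) := by
      rw [hr' j x, hd, tw]
      push_cast
      field_simp
      ring
    rw [e]
    exact (ha.mul (hD j)).mul ((int_nat _).mul ((int_s π).pow k))

end Vale.Agent.P004C.Ms
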