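import Vale.Agent.P004C.St
import Vale.Agent.P004C.In.St
import Vale.Agent.P004C.An.Tx
import Vale.Agent.P004C.Ld.Defs

/-!
# P004 C, block MEAS: integral measures attached to the rational cocycle (words and rows)
-/

open NumberField Module Finset Algebra
open scoped Classical

noncomputable section

namespace Vale.Agent.P004C.Ms

open In An Vale.Agent.P027H

section

variable {K : Type} [Field K] [NumberField K] (ι : ℂ →+* ℂ_[2]) (J : K →+* ℂ)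

/-- integral away from `π` -/
def Ow {M : Type} [Field M] [Algebra K M] (π : 𝓞 K) (x : M) : Prop :=
  ∃ a : ℕ, IsIntegral ℤ (algebraMap K M π ^ a * x)

/-- `± e! / (ω z) ^ (e + 1)` -/
def pw (ω : ℂ) (e : ℕ) (z : K) : ℂ := (-1) ^ e * e.factorial / (ω * J z) ^ (e + 1)

/-- `(ψ (c z) - 1) / (ω z)` -/
def rh (ψ : K → ℂ) (ω : ℂ) (c z : K) : ℂ := if z = 0 then J c else (ψ (c * z) - 1) / (ω * J z)

/-- difference of two cosets of the integers -/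
def f1 (ρ : K → ℂ) (u z : K) : K → ℂ := fun x =>
  ((if IsIntegral ℤ (x - z - u) then 1 else 0) - if IsIntegral ℤ (x - z) then 1 else 0) * ρ x

/-- finite Fourier transform along the torsion points of level `A` -/
def fo (τ : ℕ → K) (ψ ρ : K → ℂ) (u z : K) (A : ℕ) (β : ℤ) : ℂ_[2] :=
  ft (ι (ψ (τ A))) A (fun j => ι (rg (f1 ρ u (z + j * τ A)))) β

/-- the place `v` -/
structure Ar (π : 𝓞 K) (τ : ℕ → K) (ψ : K → ℂ) : Prop where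
  p0 : π ≠ 0
  p1 : ‖ι (J π)‖ < 1
  cop : ∀ s : 𝓞 K, ‖ι (J s)‖ = 1 → IsCoprime π s
  loc : ∀ x : K, ‖ι (J x)‖ ≤ 1 → ∃ s : 𝓞 K, ‖ι (J s)‖ = 1 ∧ IsIntegral ℤ ((s : K) * x)
  den : ∀ x : K, ‖ι (J x)‖ ≤ 1 → ∀ a : ℕ, ∃ c : ℕ, ‖ι (J (x - c))‖ ≤ (1 / 2) ^ a
  add : ∀ x y, ψ (x + y) = ψ x * ψ y
  ker : ∀ x, ψ x = 1 ↔ ‖ι (J x)‖ ≤ 1
  tv : ∀ a, ‖ι (J (τ a))‖ = 2 ^ a
  tw : ∀ a, Ow π (τ a)

/-- the output of INT1 and ORD -/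
structure Pre (Ω : ℝ) (π : 𝓞 K) (τ : ℕ → K) (ψ : K → ℂ) (ω q : ℂ) : Prop
    extends Ar ι J π τ ψ where
  om : ‖ι ω‖ = Ω
  o0 : ω ≠ 0
  lat : IsLat (Lk J)
  tor : ∀ y : K, Fm (av ι) (Lk J) q (J y) → Ow π y
  ms : ∀ (L : Submodule ℤ ℂ) (κ : Type) [Fintype κ] (r : κ → ℂ) (ξ f : ℂ → ℂ),
    Kr (Lk J) L r ξ f → (∀ m ∈ L, Fm (av ι) (Lk J) q m → m ∈ Lk J) → (∀ m ∈ L, av ι (ξ m) = 1) →
    (∃ m ∈ L, av ι (ξ m - 1) = 1) →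
    In.Ms ι (Lk J) L (fun a => J (τ a)) q (fun a => ψ (τ a)) (ι ω) f

/-- the one variable measures -/
structure One (Ω : ℝ) (π : 𝓞 K) (τ : ℕ → K) (ψ : K → ℂ) (ω : ℂ) : Prop
    extends Ar ι J π τ ψ where
  om : ‖ι ω‖ = Ω
  o0 : ω ≠ 0
  gd : ∀ (g s : ℕ) (z : K) (e : ℕ), Odd g → ¬ Ow π (g * z) →
    (∃ r, Reg (f1 (pw J ω e) (s / g) z) r) ∧ ∀ (A : ℕ) (β : ℤ),
      ‖fo ι τ ψ (pw J ω e) (s / g) z A β‖ ≤ 1 ∧
      ‖fo ι τ ψ (pw J ω (e + 1)) (s / g) z A β - β * fo ι τ ψ (pw J ω e) (s / g) z A β‖ ≤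
        (1 / 2) ^ A
  pl : ∀ (g s : ℕ) (z c : K), Odd g → ‖ι (J c)‖ ≤ 1 →
    (∃ r, Reg (f1 (rh J ψ ω c) (s / g) z) r) ∧
      (‖ι (J z)‖ ≤ 1 → ∀ (A : ℕ) (β : ℤ), ‖fo ι τ ψ (rh J ψ ω c) (s / g) z A β‖ ≤ 1)

variable {M : Type} [Field M] [NumberField M] [Algebra K M] {n : ℕ}

/-- the embeddings over `J` -/
structure Em (σ : Fin n → M →+* ℂ) : Prop where
  ext : ∀ i (x : K), σ i (algebraMap K M x) = J x
  tr : ∀ x, ∑ i, σ i x = J (trace K M x)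
  nm : ∀ x, ∏ i, σ i x = J (Algebra.norm K x)

/-- `2 ^ a` times the dual lattice at `v` -/
def Fd (a : ℕ) (y : M) : Prop := ∀ x, Vi ι J x → ‖ι (J (trace K M (x * y)))‖ ≤ (1 / 2) ^ a

/-- a generator of the dual lattice -/
def Gn (t0 : M) : Prop := t0 ≠ 0 ∧ ∀ y, Fd ι J 0 y ↔ Vi ι J (y / t0)

/-- representatives of `y + F m` modulo `F a` -/
structure Rs (m a : ℕ) (y : M) {κ : Type} [Fintype κ] (r : κ → M) : Prop where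
  le : m ≤ a
  mem : ∀ i, Fd ι J m (r i - y)
  ex : ∀ y', Fd ι J m (y' - y) → ∃! i, Fd ι J a (y' - r i)

/-- the character of a ball -/
def EE (ψ : K → ℂ) (a : ℕ) (y x : M) : ℂ :=
  if Vi ι J (2 ^ a * x) then ψ (-trace K M (x * y)) else 0

/-- the determinant of the vertices -/
def dt (b : Basis (Fin n) K M) (T : Fin n → M) : K :=
  (Matrix.of fun j i => trace K M (T j * b i)).det

/-- the square root of the discriminant -/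
def kp (b : Basis (Fin n) K M) (σ : Fin n → M →+* ℂ) : ℂ := (Matrix.of fun k i => σ i (b k)).det

/-- the function whose regularised sum is the mass of `y + F a` -/
def ms (ψ : K → ℂ) (b : Basis (Fin n) K M) (T : Fin n → M) (ρ : Fin n → K → ℂ) (φ : M → ℂ) (a : ℕ)
    (y : M) : M → ℂ := fun x =>
  φ x * EE ι J ψ a y x * (J (dt b T) / 2 ^ (a * n) * ∏ j, ρ j (trace K M (T j * x)))

/-- test functions: prime to `v`, smoothed at `c` -/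
structure Tf (π : 𝓞 K) (c : Ideal (𝓞 M)) (l : ℕ) (φ : M → ℂ) : Prop where
  bdd : ∃ B : ℝ, ∀ x, ‖ι (φ x)‖ ≤ B
  lev : ∃ N : ℕ, N.Coprime l ∧ (∀ x, φ x ≠ 0 → Ow π (N * x)) ∧
    (∀ (x : M) (u : 𝓞 M) (o : M), u ∈ c → Ow π o → φ (x + N * u * o) = φ x) ∧
    ∀ (x : M) (d : 𝓞 M), d ∉ c → ∑ s ∈ range l, φ (x + s * N * d) = 0

variable (K) in
/-- admissible vertices -/
def Adm (c : Ideal (𝓞 M)) (T : Fin n → M) : Prop := ¬ LinearIndependent K T ∨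
  ∀ j, ∃ d : 𝓞 M, d ∉ c ∧ ∀ i, i ≠ j → trace K M (T i * d) = 0

/-- no poles at the torsion points -/
def Good (π : 𝓞 K) (l : ℕ) (T : Fin n → M) (φ : M → ℂ) : Prop := ∃ N : ℕ, N.Coprime l ∧
  ∀ j x, φ x ≠ 0 → ¬ Ow (π * (l : 𝓞 K)) (trace K M (T j * x) / N)

/-- unit at the primes above `l` -/
def Ul (l : ℕ) (e : M) : Prop :=
  e ≠ 0 ∧ ∃ N : ℕ, N.Coprime l ∧ IsIntegral ℤ (N * e) ∧ IsIntegral ℤ (N / e)

/-- a frame adapted to the test function -/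
structure Ad (π : 𝓞 K) (g : ℕ) (d : Basis (Fin n) K M) (φ : M → ℂ) : Prop where
  odd : Odd g
  vi : ∀ j, Vi ι J (d j)
  per : ∀ j (o : K) x, Ow π o → φ (x + o • d j) = φ x
  mz : ∀ j x, ∑ s ∈ range g, φ (x + ((s : K) / g) • d j) = 0
  fin : ∃ N : ℕ, N ≠ 0 ∧ ∀ x i, φ x ≠ 0 → Ow π (N * d.repr x i)

/-- bounded measures on the dual lattice -/
structure Mes (ν : ℕ → M → ℂ_[2]) (B : ℝ) : Prop where
  bd : ∀ a y, Fd ι J 0 y → ‖ν a y‖ ≤ B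
  dis : ∀ m a y (κ : Type) [Fintype κ] (r : κ → M), Fd ι J 0 y → Rs ι J m a y r →
    ν m y = ∑ i, ν a (r i)

/-- coordinates at `v` -/
def sv (σ : Fin n → M →+* ℂ) (x : M) : Fin n → ℂ_[2] := fun i => ι (σ i x)

/-- `L` is integration over `t0 + F m` -/
def It (σ : Fin n → M →+* ℂ) (ν : ℕ → M → ℂ_[2]) (m : ℕ) (t0 : M) (L : Ld.Fn n) : Prop :=
  ∀ P : Ld.Py n, ∃ C : ℝ, ∀ a (κ : Type) [Fintype κ] (r : κ → M), Rs ι J m a t0 r →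
    ‖L P - ∑ i, MvPolynomial.eval (sv ι σ (r i / t0)) P * ν a (r i)‖ ≤ C * (1 / 2) ^ a

/-- the export for the leading term -/
structure Lm (π : 𝓞 K) (ψ : K → ℂ) (ω : ℂ) (b : Basis (Fin n) K M) (σ : Fin n → M →+* ℂ)
    (c : Ideal (𝓞 M)) (l m : ℕ) (t0 : M) (nu : (Fin n → M) → (M → ℂ) → Ld.Fn n) : Prop where
  add : ∀ t φ φ', (∀ j, V1 ι J m (t j)) → Adm K c (fun j => t0 * t j) → Tf ι π c l φ →
    Tf ι π c l φ' → nu t (φ + φ') = nu t φ + nu t φ'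
  bd : ∀ t φ B, (∀ j, V1 ι J m (t j)) → Adm K c (fun j => t0 * t j) → Tf ι π c l φ →
    (∀ x, ‖ι (φ x)‖ ≤ B) → Ld.Bn m B (nu t φ)
  eqv : ∀ t φ e, (∀ j, V1 ι J m (t j)) → Adm K c (fun j => t0 * t j) → Tf ι π c l φ →
    V1 ι J m e → nu (fun j => e * t j) (fun x => φ (e * x)) =
      (∏ i, sv ι σ e i) • nu t φ ∘ₗ (Ld.dl (sv ι σ e)).toLinearMap
  coc : ∀ (t : Fin (n + 1) → M) φ, (∀ j, V1 ι J m (t j)) →
    (∀ i : Fin (n + 1), Adm K c fun j => t0 * t (i.succAbove j)) → Tf ι π c l φ →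
    ∑ i : Fin (n + 1), (-1 : ℤ) ^ (i : ℕ) • nu (fun j => t (i.succAbove j)) φ ∘ₗ
      Ld.df ((2 : ℂ_[2]) ^ m • sv ι σ (t i)) = 0
  res : ∀ t φ, (∀ j, V1 ι J m (t j)) → Adm K c (fun j => t0 * t j) → Tf ι π c l φ →
    nu t φ 1 = ι (φ 0) * (ι (kp b σ) * ι (J (Algebra.norm K t0))) *
      (Matrix.of fun j => sv ι σ (t j)).det
  hon : ∀ t φ B, (∀ j, V1 ι J m (t j)) → Adm K c (fun j => t0 * t j) → Tf ι π c l φ →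
    (∀ x, ‖ι (φ x)‖ ≤ B) → Good π l (fun j => t0 * t j) φ → ∃ μ : Ld.Fn n, Ld.Bn m B μ ∧
    nu t φ = μ ∘ₗ Ld.dp m (fun j => sv ι σ (t j)) ∧ ∀ k, 0 < k → ∃ z,
      Reg (fun x => φ x * EE ι J ψ m t0 x * ck k (fun j i => σ i (t0 * t j)) fun i => σ i x) z ∧
      μ (∏ i, MvPolynomial.X i ^ (k - 1)) * ι (J (Algebra.norm K t0)) ^ (k - 1) * 2 ^ (m * n) *
        ι ω ^ (n * k) = ι (kp b σ) * ((k - 1).factorial : ℂ_[2]) ^ n * ι z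

end

/-- row BS1 -/
def BS1 : Prop := ∀ (K : Type) [Field K] [NumberField K] (ι : ℂ →+* ℂ_[2]) (J : K →+* ℂ) (Ω : ℝ),
  Base ι J Ω → Function.Surjective ι → ∃ π τ ψ ω q, Pre ι J Ω π τ ψ ω q

/-- row BS2 -/
def BS2 : Prop := ∀ (K : Type) [Field K] [NumberField K] (ι : ℂ →+* ℂ_[2]) (J : K →+* ℂ) (Ω : ℝ)
  π τ ψ ω q, Pre ι J Ω π τ ψ ω q → One ι J Ω π τ ψ ω

/-- **export BAS** -/
def BAS : Prop := ∀ (K : Type) [Field K] [NumberField K] (ι : ℂ →+* ℂ_[2]) (J : K →+* ℂ) (Ω : ℝ),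
  Base ι J Ω → Function.Surjective ι → ∃ π τ ψ ω, One ι J Ω π τ ψ ω

/-- **export EMB** -/
def EMB : Prop := ∀ (K : Type) [Field K] [NumberField K] (ι : ℂ →+* ℂ_[2]) (J : K →+* ℂ)
  (M : Type) [Field M] [NumberField M] [Algebra K M] (n : ℕ) (b : Basis (Fin n) K M),
  (∃ σ : Fin n → M →+* ℂ, Em J σ ∧ Function.Injective σ) ∧ ∀ σ : Fin n → M →+* ℂ, Em J σ →
    kp b σ ≠ 0 ∧ ‖ι (kp b σ)‖ = √(dv ι J b) ∧
    (∀ T : Fin n → M, J (dt b T) = kp b σ * (Matrix.of fun j i => σ i (T j)).det) ∧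
    (∀ T : Fin n → M, dt b T ≠ 0 ↔ LinearIndependent K T) ∧
    ∀ x, Vi ι J x → ∀ i, ‖ι (σ i x)‖ ≤ 1

/-- row CKE: expansion of the cocycle -/
def CKE : Prop := ∀ (n k : ℕ) (l : Fin n → Fin n → ℂ) (x : Fin n → ℂ) (P : MvPolynomial (Fin n) ℂ),
  P = ∏ i, (∑ j, MvPolynomial.C (l j i) * MvPolynomial.X j) ^ (k - 1) →
  ((k - 1).factorial : ℂ) ^ n * ck k l x = (Matrix.of l).det * ∑ e ∈ P.support, P.coeff e *
    ∏ j, ((-1) ^ e j * (e j).factorial / lf (l j) x ^ (e j + 1))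

/-- **export DIF**: the dual lattice is principal at `v` -/
def DIF : Prop := ∀ (K : Type) [Field K] [NumberField K] (ι : ℂ →+* ℂ_[2]) (J : K →+* ℂ) π τ ψ,
  Ar ι J π τ ψ → ∀ (M : Type) [Field M] [NumberField M] [Algebra K M] (n : ℕ)
  (b : Basis (Fin n) K M), Vb ι J b → (∃ t0 : M, Gn ι J t0) ∧ ∀ t0 : M, Gn ι J t0 →
    ‖ι (J (Algebra.norm K t0))‖ * dv ι J b = 1 ∧
    ∀ a y, Fd ι J a y ↔ Vi ι J (y / t0 / 2 ^ a)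

/-- row REP: representatives in one variable -/
def REP : Prop := ∀ (K : Type) [Field K] [NumberField K] (ι : ℂ →+* ℂ_[2]) (J : K →+* ℂ) π τ ψ,
  Ar ι J π τ ψ → ∀ N : ℕ, N ≠ 0 → ∃ (κ : Type) (_ : Fintype κ) (z : κ → K),
    (∀ k, ‖ι (J (z k))‖ ≤ 1) ∧ ∀ (A : ℕ) (x : K), Ow π (N * x) → ‖ι (J x)‖ ≤ 2 ^ A →
      ∃! p : κ × Fin (2 ^ A), IsIntegral ℤ (x - (z p.1 + (p.2 : ℕ) * τ A))

/-- row CNT: the order of the group of torsion points -/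
def CNT : Prop := ∀ (K : Type) [Field K] [NumberField K] (ι : ℂ →+* ℂ_[2]) (J : K →+* ℂ) π τ ψ,
  Ar ι J π τ ψ → ∀ (M : Type) [Field M] [NumberField M] [Algebra K M] (n : ℕ)
  (b d : Basis (Fin n) K M), Vb ι J b → (∀ j, Vi ι J (d j)) → ∀ a, ∃ A, a ≤ A ∧
    (∀ x i, Vi ι J (2 ^ a * x) → ‖ι (J (d.repr x i))‖ ≤ 2 ^ A) ∧
    ‖((univ.filter fun j : Fin n → Fin (2 ^ A) =>
      Vi ι J (2 ^ a * ∑ i, (((j i : ℕ) : K) * τ A) • d i)).card : ℂ_[2])‖ ≤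
      (1 / 2) ^ (a * n) * ‖ι (J (b.det d))‖

/-- row UNF: unfolding into products of one variable transforms -/
def UNF : Prop := ∀ (K : Type) [Field K] [NumberField K] (ι : ℂ →+* ℂ_[2]) (J : K →+* ℂ) π τ ψ,
  Ar ι J π τ ψ → ∀ (M : Type) [Field M] [NumberField M] [Algebra K M] (n : ℕ)
  (b d : Basis (Fin n) K M), Vb ι J b → ∀ (g : ℕ) (φ : M → ℂ), Ad ι J π g d φ → ∀ (a : ℕ) (y : M),
  Fd ι J 0 y → ∃ (A : ℕ) (I : Type) (_ : Fintype I) (co : I → ℂ_[2]) (z : I → Fin n → K)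
    (s : I → Fin n → ℕ) (β : I → Fin n → ℤ), a ≤ A ∧
    (∀ p, ∃ x, φ x ≠ 0 ∧ ‖co p‖ ≤ ‖ι (φ x)‖ ∧ ∀ i, d.repr x i = z p i + s p i / g ∧
      ‖ι (J (z p i))‖ ≤ 1 ∧ ‖ι (J (β p i - trace K M (d i * y)))‖ ≤ (1 / 2) ^ a) ∧
    ∀ ρ : Fin n → K → ℂ,
      (∀ p i (j : ℕ), ∃ r, Reg (f1 (ρ i) (s p i / g) (z p i + j * τ A)) r) → ∃ r,
      Reg (fun x => φ x * EE ι J ψ a y x *
        ((J (b.det d))⁻¹ / 2 ^ (a * n) * ∏ i, ρ i (d.repr x i))) r ∧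
      ι r = ∑ p, co p * ∏ i, fo ι τ ψ (ρ i) (s p i / g) (z p i) A (β p i)

/-- row TST: adapted frames exist -/
def TST : Prop := ∀ (K : Type) [Field K] [NumberField K] (ι : ℂ →+* ℂ_[2]) (J : K →+* ℂ) (π : 𝓞 K)
  (M : Type) [Field M] [NumberField M] [Algebra K M] (n : ℕ) (b : Basis (Fin n) K M)
  (c : Ideal (𝓞 M)) (l : ℕ), Sm c l → ∀ (T : Fin n → M) (φ : M → ℂ), Tf ι π c l φ → Adm K c T →
  LinearIndependent K T → ∃ (d : Basis (Fin n) K M) (w : Fin n → K), Ad ι J π l d φ ∧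
    (∀ j, w j ≠ 0 ∧ ∀ x, trace K M (T j * x) = w j * d.repr x j) ∧ dt b T * b.det d = ∏ j, w j ∧
    (Good π l T φ → ∀ x j, φ x ≠ 0 → ¬ Ow π (l * d.repr x j))

/-- **export TFC**: calculus of test functions and admissible vertices -/
def TFC : Prop := ∀ (K : Type) [Field K] [NumberField K] (ι : ℂ →+* ℂ_[2]) (J : K →+* ℂ) π τ ψ,
  Ar ι J π τ ψ → ∀ (M : Type) [Field M] [NumberField M] [Algebra K M] (c : Ideal (𝓞 M)) (l : ℕ),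
  Sm c l →
  (∀ φ φ' : M → ℂ, Tf ι π c l φ → Tf ι π c l φ' → Tf ι π c l (φ + φ')) ∧
  (∀ (φ : M → ℂ) (a : ℂ), Tf ι π c l φ → Tf ι π c l (a • φ)) ∧ Tf ι π c l (0 : M → ℂ) ∧
  (∀ (φ : M → ℂ) (e : M), Ul l e → Tf ι π c l φ → Tf ι π c l fun x => φ (e * x)) ∧
  (∀ (n : ℕ) (T : Fin n → M) (e : M), Ul l e → Adm K c T → Adm K c fun j => e * T j) ∧
  (∀ (n : ℕ) (T : Fin n → M) (ϖ : 𝓞 M) (h : ℕ), finrank K M = n → 0 < h →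
    Ideal.span {ϖ} = c ^ h → ∃ B0, ∀ B, B0 ≤ B → Adm K c fun j => (ϖ : M) ^ B * T j) ∧
  ∀ (Φ : M → ℂ) (N : ℕ) (B : ℝ), N.Coprime l → (∀ x, ‖ι (Φ x)‖ ≤ B) →
    (∀ x, Φ x ≠ 0 → Ow π (N * x)) → (∀ x o : M, Ow π o → Φ (x + N * o) = Φ x) →
    Tf ι π c l fun x => Φ x * (1 - if ∃ (a : ℕ) (u : 𝓞 M), u ∈ c ∧
      algebraMap K M π ^ a * (N * x) = u then (l : ℂ) else 0)

/-- row DIS: the distribution relation -/
def DIS : Prop := ∀ (K : Type) [Field K] [NumberField K] (ι : ℂ →+* ℂ_[2]) (J : K →+* ℂ) π τ ψ,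
  Ar ι J π τ ψ → ∀ (M : Type) [Field M] [NumberField M] [Algebra K M] (n : ℕ)
  (b : Basis (Fin n) K M), Vb ι J b →
  (∀ m a (y : M), m ≤ a → ∃ (κ : Type) (_ : Fintype κ) (r : κ → M), Rs ι J m a y r) ∧
  ∀ m a (y : M) (κ : Type) [Fintype κ] (r : κ → M), Rs ι J m a y r → ∀ x,
    EE ι J ψ m y x / 2 ^ (m * n) = ∑ i, EE ι J ψ a (r i) x / 2 ^ (a * n)

/-- row PRN: the measures with poles -/
def PRN : Prop := ∀ (K : Type) [Field K] [NumberField K] (ι : ℂ →+* ℂ_[2]) (J : K →+* ℂ) Ω π τ ψ ω,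
  One ι J Ω π τ ψ ω → ∀ (M : Type) [Field M] [NumberField M] [Algebra K M] (n : ℕ)
  (b : Basis (Fin n) K M), Vb ι J b → ∀ (c : Ideal (𝓞 M)) (l : ℕ), Sm c l →
  ∀ (T : Fin n → M) (φ : M → ℂ) (B : ℝ), Tf ι π c l φ → Adm K c T → (∀ j, Fd ι J 0 (T j)) →
  (∀ x, ‖ι (φ x)‖ ≤ B) → ∀ a y, Fd ι J 0 y →
    ∃ r, Reg (ms ι J ψ b T (fun _ => rh J ψ ω 1) φ a y) r ∧ ‖ι r‖ ≤ B

/-- row PRM: the honest measures and their moments -/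
def PRM : Prop := ∀ (K : Type) [Field K] [NumberField K] (ι : ℂ →+* ℂ_[2]) (J : K →+* ℂ) Ω π τ ψ ω,
  One ι J Ω π τ ψ ω → ∀ (M : Type) [Field M] [NumberField M] [Algebra K M] (n : ℕ)
  (b : Basis (Fin n) K M), Vb ι J b → ∀ (c : Ideal (𝓞 M)) (l : ℕ), Sm c l →
  ∀ (T : Fin n → M) (φ : M → ℂ) (B : ℝ), Tf ι π c l φ → Adm K c T → Good π l T φ →
  (∀ x, ‖ι (φ x)‖ ≤ B) →
  (∀ a y, Fd ι J 0 y → ‖ι (rg (ms ι J ψ b T (fun _ => pw J ω 0) φ a y))‖ ≤ B) ∧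
  ∀ e : Fin n → ℕ, ∃ C : ℝ, ∀ a y, Fd ι J 0 y →
    (∃ r, Reg (ms ι J ψ b T (fun j => pw J ω (e j)) φ a y) r) ∧
    ∀ u : Fin n → K, y = ∑ j, u j • T j →
      ‖ι (rg (ms ι J ψ b T (fun j => pw J ω (e j)) φ a y)) - (∏ j, ι (J (u j)) ^ e j) *
        ι (rg (ms ι J ψ b T (fun _ => pw J ω 0) φ a y))‖ ≤ C * (1 / 2) ^ a

/-- row RSM: Riemann sums -/
def RSM : Prop := ∀ (K : Type) [Field K] [NumberField K] (ι : ℂ →+* ℂ_[2]) (J : K →+* ℂ) Ω π τ ψ ω,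
  One ι J Ω π τ ψ ω → ∀ (M : Type) [Field M] [NumberField M] [Algebra K M] (n : ℕ)
  (b : Basis (Fin n) K M), Vb ι J b → ∀ σ : Fin n → M →+* ℂ, Em J σ →
  ∀ (c : Ideal (𝓞 M)) (l : ℕ), Sm c l → ∀ (T : Fin n → M) (φ : M → ℂ), Tf ι π c l φ → Adm K c T →
  Good π l T φ → ∀ k, 0 < k → ∃ C : ℝ, ∀ m y, Fd ι J 0 y → ∃ s,
    Reg (fun x => φ x * EE ι J ψ m y x * ck k (fun j i => σ i (T j)) fun i => σ i x) s ∧
    ∀ a (κ : Type) [Fintype κ] (r : κ → M), Rs ι J m a y r →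
      ‖ι (kp b σ) * ((k - 1).factorial : ℂ_[2]) ^ n * ι s / (ι ω ^ (n * k) * 2 ^ (m * n)) -
        ∑ i, ι (J (Algebra.norm K (r i))) ^ (k - 1) *
          ι (rg (ms ι J ψ b T (fun _ => pw J ω 0) φ a (r i)))‖ ≤ C * (1 / 2) ^ a

/-- **export MSR** -/
def MSR : Prop := ∀ (K : Type) [Field K] [NumberField K] (ι : ℂ →+* ℂ_[2]) (J : K →+* ℂ) Ω π τ ψ ω,
  One ι J Ω π τ ψ ω → ∀ (M : Type) [Field M] [NumberField M] [Algebra K M] (n : ℕ)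
  (b : Basis (Fin n) K M), Vb ι J b → ∀ σ : Fin n → M →+* ℂ, Em J σ →
  ∀ (c : Ideal (𝓞 M)) (l : ℕ), Sm c l → ∀ (T : Fin n → M) (φ : M → ℂ) (B : ℝ), Tf ι π c l φ →
  Adm K c T → Good π l T φ → (∀ x, ‖ι (φ x)‖ ≤ B) → ∀ m y, Fd ι J 0 y → ∃ s : ℕ → ℂ,
    (∀ k, 0 < k → Reg
      (fun x => φ x * EE ι J ψ m y x * ck k (fun j i => σ i (T j)) fun i => σ i x) (s k)) ∧
    ∀ (S : Finset ℕ) (α : ℕ → ℂ_[2]) (δ : ℝ), (∀ k ∈ S, 0 < k) →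
      (∀ y', Fd ι J m (y' - y) → ‖∑ k ∈ S, α k * ι (J (Algebra.norm K y')) ^ (k - 1)‖ ≤ δ) →
      ‖∑ k ∈ S, α k * (((k - 1).factorial : ℂ_[2]) ^ n * ι (s k) /
        (ι ω ^ (n * k) * 2 ^ (m * n)))‖ ≤ δ * B / √(dv ι J b)

/-- row LIM: integration of polynomials -/
def LIM : Prop := ∀ (K : Type) [Field K] [NumberField K] (ι : ℂ →+* ℂ_[2]) (J : K →+* ℂ) π τ ψ,
  Ar ι J π τ ψ → ∀ (M : Type) [Field M] [NumberField M] [Algebra K M] (n : ℕ)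
  (b : Basis (Fin n) K M), Vb ι J b → ∀ σ : Fin n → M →+* ℂ, Em J σ → ∀ (m : ℕ) (t0 : M), 0 < m →
  Gn ι J t0 →
  (∀ ν B, Mes ι J ν B → ∃ L, It ι J σ ν m t0 L ∧ Ld.Bn m B L ∧ L 1 = ν m t0) ∧
  (∀ ν L L', It ι J σ ν m t0 L → It ι J σ ν m t0 L' → L = L') ∧
  (∀ ν ν' L, (∀ a y, m ≤ a → Fd ι J m (y - t0) → ν' a y = ν a y) → It ι J σ ν m t0 L →
    It ι J σ ν' m t0 L) ∧
  (∀ ν ν' L L' (u : ℂ_[2]), It ι J σ ν m t0 L → It ι J σ ν' m t0 L' →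
    It ι J σ (ν + u • ν') m t0 (L + u • L')) ∧
  (∀ ν L (T : M), Fd ι J m T → It ι J σ ν m t0 L →
    It ι J σ (fun a y => ν a (y - T)) m t0 (L ∘ₗ (Ld.sh (sv ι σ (T / t0))).toLinearMap)) ∧
  ∀ ν L (e : M), V1 ι J m e → It ι J σ ν m t0 L →
    It ι J σ (fun a y => ν a (y / e)) m t0 (L ∘ₗ (Ld.dl (sv ι σ e)).toLinearMap)

/-- **export LMS** -/
def LMS : Prop := ∀ (K : Type) [Field K] [NumberField K] (ι : ℂ →+* ℂ_[2]) (J : K →+* ℂ) Ω π τ ψ ω,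
  One ι J Ω π τ ψ ω → ∀ (M : Type) [Field M] [NumberField M] [Algebra K M] (n : ℕ)
  (b : Basis (Fin n) K M), Vb ι J b → ∀ σ : Fin n → M →+* ℂ, Em J σ →
  ∀ (c : Ideal (𝓞 M)) (l : ℕ), Sm c l → ∀ (m : ℕ) (t0 : M), 0 < m → Gn ι J t0 →
  ∃ nu, Lm ι J π ψ ω b σ c l m t0 nu

end Vale.Agent.P004C.Ms
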