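import Vale.Agent.P004C.Ms.Unf0

/-!
# P004 C, block MEAS: unfolding
-/

set_option linter.unusedSectionVars false

open NumberField Module Finset Algebra
open scoped Classical

noncomputable section

namespace Vale.Agent.P004C.Ms

open In An Al.Gx

variable {K : Type} [Field K] [NumberField K] {ι : ℂ →+* ℂ_[2]} {J : K →+* ℂ} {π : 𝓞 K}
  {τ : ℕ → K} {ψ : K → ℂ} {M : Type} [Field M] [NumberField M] [Algebra K M] {n : ℕ}
  {d : Basis (Fin n) K M}

namespace Uf

theorem vi_sum (h : Ar ι J π τ ψ) (hd : ∀ j, Vi ι J (d j)) {u : Fin n → K}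
    (hu : ∀ i, ‖ι (J (u i))‖ ≤ 1) : ∑ i, u i • d i ∈ Ov ι J M :=
  sum_mem fun i _ => h.vi (hu i) (hd i)

theorem two_Ov (a : ℕ) : (2 : M) ^ a ∈ Ov ι J M := pow_mem (ofNat_mem _ 2) a

theorem vi_per {x u : M} (hu : u ∈ Ov ι J M) (a : ℕ) :
    Vi ι J (2 ^ a * (x + u)) ↔ Vi ι J (2 ^ a * x) := by
  rw [mul_add, ← mem_Ov, ← mem_Ov]
  exact add_mem_cancel_right (mul_mem (two_Ov a) hu)

theorem ee_per (h : Ar ι J π τ ψ) {y x u : M} (hy : Fd ι J 0 y) (hu : u ∈ Ov ι J M) (a : ℕ) :
    EE ι J ψ a y (x + u) = EE ι J ψ a y x := by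
  simp only [EE, vi_per hu]
  rw [add_mul, map_add, neg_add, h.per (by rw [nm_neg]; simpa using hy u hu)]

/-- the torsion points -/
def X (τ : ℕ → K) (d : Basis (Fin n) K M) (A : ℕ) (j : Fin n → ℕ) : M :=
  ∑ i, ((j i : K) * τ A) • d i

variable (ι J) in
/-- a character on the group of torsion points -/
def kk (τ : ℕ → K) (ψ : K → ℂ) (d : Basis (Fin n) K M) (a A : ℕ) (l : Fin n → K)
    (j : Fin n → ℕ) : ℂ :=
  if Vi ι J (2 ^ a * X τ d A j) then ψ (∑ i, j i * τ A * l i) else 0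

theorem X_add (A : ℕ) (j j' : Fin n → ℕ) : X τ d A (j + j') = X τ d A j + X τ d A j' := by
  simp only [X, ← sum_add_distrib, Pi.add_apply, Nat.cast_add, add_mul, add_smul]

variable (h : Ar ι J π τ ψ) (hd : ∀ j, Vi ι J (d j)) {a A : ℕ} {l : Fin n → K}
  (hl : ∀ i, ‖ι (J (l i))‖ ≤ 1)

include h in
theorem kk_add {j0 : Fin n → ℕ} (h0 : Vi ι J (2 ^ a * X τ d A j0)) (j : Fin n → ℕ) :
    kk ι J τ ψ d a A l (j + j0) = kk ι J τ ψ d a A l j * ψ (∑ i, j0 i * τ A * l i) := by
  have : Vi ι J (2 ^ a * X τ d A (j + j0)) ↔ Vi ι J (2 ^ a * X τ d A j) := by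
    rw [X_add, mul_add, ← mem_Ov, ← mem_Ov]
    exact add_mem_cancel_right (mem_Ov.2 h0)
  simp only [kk, this]
  split_ifs
  · simp only [← h.add, ← sum_add_distrib, Pi.add_apply, Nat.cast_add, add_mul]
  · rw [zero_mul]

include h hd hl in
theorem kk_mod (j : Fin n → ℕ) :
    kk ι J τ ψ d a A l (fun i => j i % 2 ^ A) = kk ι J τ ψ d a A l j := by
  have e : ∀ i, ‖ι (J (((2 ^ A * (j i / 2 ^ A) : ℕ) : K) * τ A))‖ ≤ 1 := fun i => by
    rw [Nat.cast_mul, Nat.cast_pow, Nat.cast_ofNat, mul_right_comm, nm_mul, h.tu, one_mul]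
    exact nm_nat _
  have := kk_add h (a := a) (A := A) (l := l) (j0 := fun i => 2 ^ A * (j i / 2 ^ A))
    (mul_mem (two_Ov a) (vi_sum h hd e)) fun i => j i % 2 ^ A
  rw [(h.ker _).2 (nm_sum _ zero_le_one fun i _ => by
    rw [nm_mul]; exact mul_le_one₀ (e i) (norm_nonneg _) (hl i)), mul_one] at this
  rw [← this]
  exact congrArg _ (funext fun i => Nat.mod_add_div _ _)

include h hd hl in
theorem kk_sum (ha : a ≤ A) :
    ∑ j : Fin n → Fin (2 ^ A), kk ι J τ ψ d a A l (fun i => j i) = 0 ∨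
    (∑ j : Fin n → Fin (2 ^ A), kk ι J τ ψ d a A l (fun i => j i) =
      (univ.filter fun j : Fin n → Fin (2 ^ A) => Vi ι J (2 ^ a * X τ d A fun i => j i)).card ∧
      ∀ i, ‖ι (J (l i))‖ ≤ (1 / 2) ^ a) := by
  refine or_iff_not_imp_left.2 fun h0 => ?_
  have key : ∀ j0 : Fin n → ℕ, Vi ι J (2 ^ a * X τ d A j0) → ψ (∑ i, j0 i * τ A * l i) = 1 :=
    fun j0 hj => by
    refine mul_left_cancel₀ h0 ?_
    rw [mul_one, sum_mul, ← Equiv.sum_comp (Equiv.addRight fun i => Fin.ofNat (2 ^ A) (j0 i))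
      fun j : Fin n → Fin (2 ^ A) => kk ι J τ ψ d a A l fun i => j i]
    refine sum_congr rfl fun j _ => ?_
    rw [← kk_add h hj, ← kk_mod h hd hl]
    exact congrArg _ (funext fun i => by simp [Fin.val_add])
  refine ⟨?_, fun i => ?_⟩
  · rw [card_filter, Nat.cast_sum]
    refine sum_congr rfl fun j _ => ?_
    rw [kk]
    split_ifs with k
    · rw [key _ k, Nat.cast_one]
    · rw [Nat.cast_zero]
  · have e : ‖ι (J (((2 ^ (A - a) : ℕ) : K) * τ A))‖ = 2 ^ a := by
      obtain ⟨c, rfl⟩ := Nat.exists_eq_add_of_le ha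
      rw [Nat.add_sub_cancel_left, Nat.cast_pow, Nat.cast_ofNat, nm_mul, nm_tp, h.tv, pow_add,
        mul_left_comm, ← mul_pow]
      norm_num
    have e1 : X τ d A (Pi.single i (2 ^ (A - a))) = (((2 ^ (A - a) : ℕ) : K) * τ A) • d i := by
      rw [X, sum_eq_single i (fun k _ hk => by simp [Pi.single_eq_of_ne hk]) (by simp),
        Pi.single_eq_same]
    have := key (Pi.single i (2 ^ (A - a))) (by
      rw [e1, show (2 : M) ^ a = (2 : K) ^ a • (1 : M) by
        simp [Algebra.smul_def, map_ofNat], smul_mul_assoc, one_mul, smul_smul]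
      refine h.vi ?_ (hd i)
      rw [nm_mul, nm_tp, e, ← mul_pow]
      norm_num)
    rw [sum_eq_single i (fun k _ hk => by simp [Pi.single_eq_of_ne hk]) (by simp),
      Pi.single_eq_same, h.ker, nm_mul, e] at this
    rw [one_div, inv_pow, ← one_div, le_div_iff₀' (by positivity)]
    exact this

include h in
theorem ee_kk (y : M) (j β : Fin n → ℕ) :
    EE ι J ψ a y (X τ d A j) * ∏ i, ψ (τ A) ^ (j i * β i) =
      kk ι J τ ψ d a A (fun i => β i - trace K M (d i * y)) j := by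
  rw [EE, kk]
  split_ifs
  · simp only [← h.nat, ← h.sum, ← h.add]
    congr 1
    simp only [X, sum_mul, map_sum, smul_mul_assoc, map_smul, smul_eq_mul, ← sum_neg_distrib,
      ← sum_add_distrib]
    exact sum_congr rfl fun i _ => by push_cast; ring
  · rw [zero_mul]

section ad

variable {g : ℕ} {φ : M → ℂ} (hφ : Ad ι J π g d φ)
include hφ

theorem per_sum {o : Fin n → K} (ho : ∀ i, Ow π (o i)) (x : M) : φ (x + ∑ i, o i • d i) = φ x := by
  induction (univ : Finset (Fin n)) using Finset.induction_on with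
  | empty => simp
  | insert i t m ih => rw [sum_insert m, add_comm (_ • _), ← add_assoc, hφ.per i _ _ (ho i), ih]

theorem mz_fin [NeZero g] (z : Fin n → K) (s : Fin n → Fin g) (i : Fin n) :
    ∑ t : Fin g, φ (∑ k, (z k + ((s + Pi.single i t : Fin n → Fin g) k : ℕ) / g) • d k) = 0 := by
  have g0 : (g : K) ≠ 0 := Nat.cast_ne_zero.2 (NeZero.ne g)
  rw [← hφ.mz i (∑ k, (z k + (s k : ℕ) / g) • d k),
    ← Fin.sum_univ_eq_sum_range fun t => φ (_ + ((t : K) / g) • d i)]
  refine sum_congr rfl fun t _ => ?_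
  rw [← hφ.per i _ _ (Ow.nat (((s i : ℕ) + t) / g))]
  congr 1
  rw [← add_sum_erase _ _ (mem_univ i), ← add_sum_erase _ _ (mem_univ i), add_right_comm,
    add_right_comm _ _ (_ • d i), ← add_smul, ← add_smul, Pi.add_apply, Pi.single_eq_same,
    Fin.val_add]
  congr 1
  · congr 1
    have := congrArg (Nat.cast : ℕ → K) (Nat.mod_add_div ((s i : ℕ) + t) g)
    push_cast at this
    field_simp
    linear_combination this
  · exact sum_congr rfl fun k hk => by
      rw [Pi.add_apply, Pi.single_eq_of_ne (ne_of_mem_erase hk), add_zero]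

include h in
/-- the pointwise identity -/
theorem point [NeZero g] {y : M} (hy : Fd ι J 0 y) {κ : Type} [Fintype κ] {z : κ → K}
    (hz : ∀ k, ‖ι (J (z k))‖ ≤ 1)
    (hr : ∀ x, φ x ≠ 0 → Vi ι J (2 ^ a * x) → ∀ (i : Fin n) (s : ℕ),
      ∃! p : κ × Fin (2 ^ A), IsIntegral ℤ (d.repr x i - s / g - (z p.1 + (p.2 : ℕ) * τ A)))
    (ρ : Fin n → K → ℂ) (x : M) :
    (g : ℂ) ^ n * (φ x * EE ι J ψ a y x * ∏ i, ρ i (d.repr x i)) =
      ∑ k : Fin n → κ, ∑ s : Fin n → Fin g, ∑ j : Fin n → Fin (2 ^ A),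
        φ (∑ i, (z (k i) + (s i : ℕ) / g) • d i) * EE ι J ψ a y (X τ d A fun i => j i) *
          ∏ i, f1 (ρ i) ((s i : ℕ) / g) (z (k i) + (j i : ℕ) * τ A) (d.repr x i) := by
  have e1 : ∀ (k : Fin n → κ) (j : Fin n → Fin (2 ^ A)), ∑ s : Fin n → Fin g,
      φ (∑ i, (z (k i) + (s i : ℕ) / g) • d i) * EE ι J ψ a y (X τ d A fun i => j i) *
        ∏ i, f1 (ρ i) ((s i : ℕ) / g) (z (k i) + (j i : ℕ) * τ A) (d.repr x i) =
      ∑ s : Fin n → Fin g, (φ x * EE ι J ψ a y x * ∏ i, ρ i (d.repr x i)) * ∏ i,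
        if IsIntegral ℤ (d.repr x i - (s i : ℕ) / g - (z (k i) + (j i : ℕ) * τ A)) then 1
          else 0 := fun k j => by
    have := mz_prod (fun s : Fin n → Fin g => φ (∑ i, (z (k i) + (s i : ℕ) / g) • d i))
      (mz_fin hφ _) (fun i t => if IsIntegral ℤ
        (d.repr x i - (z (k i) + (j i : ℕ) * τ A) - (t : ℕ) / g) then 1 else 0)
      fun i => if IsIntegral ℤ (d.repr x i - (z (k i) + (j i : ℕ) * τ A)) then 1 else 0
    simp only [f1, prod_mul_distrib]
    calc _ = (∑ s : Fin n → Fin g, _) * (EE ι J ψ a y (X τ d A fun i => j i) *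
          ∏ i, ρ i (d.repr x i)) := by
          rw [sum_mul]
          exact sum_congr rfl fun s _ => by rw [mul_mul_mul_comm, mul_right_comm, ← mul_assoc]
      _ = _ := by
          rw [this, sum_mul]
          refine sum_congr rfl fun s _ => ?_
          simp only [sub_right_comm _ (_ + _), prod_ite_zero, prod_const_one, mem_univ,
            forall_true_left]
          split_ifs with m
          · have ex : x = ∑ i, d.repr x i • d i := (d.sum_repr x).symm
            have e2 : φ x = φ (∑ i, (z (k i) + (s i : ℕ) / g) • d i) := by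
              rw [← per_sum hφ (fun i => (Ow.of_int (m i)).add ((Ow.nat (j i)).mul (h.tw A)))
                (∑ i, _), ← sum_add_distrib]
              exact congrArg φ (ex.trans (sum_congr rfl fun i _ => by
                rw [← add_smul]; congr 1; ring))
            have e3 : EE ι J ψ a y x = EE ι J ψ a y (X τ d A fun i => j i) := by
              rw [← ee_per (x := X τ d A fun i => j i) h hy (vi_sum h hφ.vi fun i =>
                nm_add (nm_i (m i)) (nm_add (hz (k i)) (nm_div hφ.odd (s i)))), X,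
                ← sum_add_distrib]
              exact congrArg _ (ex.trans (sum_congr rfl fun i _ => by
                rw [← add_smul]; congr 1; ring))
            rw [e2, e3]
            ring
          · simp
  simp only [sum_comm (s := (univ : Finset (Fin n → Fin g))), e1, ← mul_sum]
  by_cases h0 : φ x * EE ι J ψ a y x = 0
  · simp [h0]
  rw [mul_comm]
  congr 1
  have hv : Vi ι J (2 ^ a * x) := by
    by_contra k
    exact h0 (by rw [EE, if_neg k, mul_zero])
  have e4 : ∀ s : Fin n → Fin g, ∑ k : Fin n → κ, ∑ j : Fin n → Fin (2 ^ A), ∏ i,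
      (if IsIntegral ℤ (d.repr x i - (s i : ℕ) / g - (z (k i) + (j i : ℕ) * τ A)) then (1 : ℂ)
        else 0) = 1 := fun s => by
    have : ∀ i, ∑ k : κ, ∑ j : Fin (2 ^ A), (if IsIntegral ℤ
        (d.repr x i - (s i : ℕ) / g - (z k + (j : ℕ) * τ A)) then (1 : ℂ) else 0) = 1 := fun i => by
      obtain ⟨p, hp, hu⟩ := hr x (left_ne_zero_of_mul h0) hv i (s i)
      rw [← Fintype.sum_prod_type', sum_eq_single p (fun q _ hq => if_neg fun m => hq (hu q m))
        (by simp), if_pos hp]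
    refine Eq.trans ?_ (prod_eq_one fun i (_ : i ∈ univ) => this i)
    rw [prod_univ_sum, Fintype.piFinset_univ]
    exact sum_congr rfl fun k _ => by rw [prod_univ_sum, Fintype.piFinset_univ]
  calc _ = ∑ _s : Fin n → Fin g, (1 : ℂ) := by simp
    _ = _ := by
      rw [← sum_congr rfl fun s _ => e4 s, sum_comm]
      exact sum_congr rfl fun k _ => sum_comm

end ad

end Uf

open Uf in
/-- **row UNF** -/
theorem unf (hR : REP) (hC : CNT) : UNF := by
  intro K _ _ ι J π τ ψ h M _ _ _ n b d hb g φ hφ a y hy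
  obtain ⟨N, N0, hN⟩ := hφ.fin
  have : NeZero g := ⟨hφ.odd.pos.ne'⟩
  have g0 : (g : K) ≠ 0 := Nat.cast_ne_zero.2 (NeZero.ne g)
  obtain ⟨κ, _, z, hz, hr⟩ := hR K ι J π τ ψ h (N * g) (mul_ne_zero N0 (NeZero.ne g))
  obtain ⟨A, ha, hA, hc⟩ := hC K ι J π τ ψ h M n b d hb hφ.vi a
  have htr : ∀ i, ‖ι (J (trace K M (d i * y)))‖ ≤ 1 := fun i => by simpa using hy _ (hφ.vi i)
  choose β0 hβ0 using fun i => h.den _ (htr i) a
  have hl : ∀ (β : Fin n → ℕ) i, ‖ι (J (β i - trace K M (d i * y)))‖ ≤ 1 := fun β i => by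
    rw [sub_eq_add_neg]
    exact nm_add (nm_nat _) (nm_neg.trans_le (htr i))
  let xq : (Fin n → κ) × (Fin n → Fin g) → M := fun q => ∑ i, (z (q.1 i) + (q.2 i : ℕ) / g) • d i
  let S : (Fin n → Fin (2 ^ A)) → ℂ := fun β => ∑ j : Fin n → Fin (2 ^ A),
    kk ι J τ ψ d a A (fun i => (β i : ℕ) - trace K M (d i * y)) fun i => j i
  let fac : ℂ := (J (b.det d))⁻¹ / 2 ^ (a * n)
  have hS := fun β : Fin n → Fin (2 ^ A) => kk_sum h hφ.vi (hl fun i => β i) ha
  refine ⟨A, {q // φ (xq q) ≠ 0} × (Fin n → Fin (2 ^ A)), inferInstance,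
    fun p => ι (((g : ℂ) ^ n)⁻¹ * fac * φ (xq p.1.1) * S p.2), fun p i => z (p.1.1.1 i),
    fun p i => p.1.1.2 i, fun p i => if S p.2 = 0 then β0 i else (p.2 i : ℕ), ha,
    fun p => ⟨xq p.1.1, p.1.2, ?_, fun i => ⟨congrFun (d.repr_sum_self _) i, hz _, ?_⟩⟩,
    fun ρ hρ => ?_⟩
  · rcases hS p.2 with k | ⟨k, -⟩
    · simp [S, k]
    · have d0 : ι (J (b.det d)) ≠ 0 := by simpa using (b.isUnit_det d).ne_zero
      have e : ‖ι fac‖ * ‖ι (S p.2)‖ ≤ 1 := by
        simp only [S, fac, k, map_natCast, map_div₀, map_inv₀, map_pow, map_ofNat, norm_div,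
          _root_.norm_inv, norm_pow, nm_two]
        refine (mul_le_mul_of_nonneg_left hc (by positivity)).trans_eq ?_
        have := norm_pos_iff.2 d0
        field_simp
      simp only [map_mul, norm_mul, map_inv₀, map_pow, map_natCast, _root_.norm_inv, norm_pow,
        nm_odd hφ.odd, one_pow, inv_one, one_mul]
      rw [mul_right_comm]
      exact mul_le_of_le_one_left (norm_nonneg _) e
  · beta_reduce
    split_ifs with k
    · rw [← neg_sub, nm_neg]
      simpa using hβ0 i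
    · simpa using ((hS p.2).resolve_left k).2 i
  · let F : (Fin n → κ) × (Fin n → Fin g) → Fin n → ℕ → ℂ := fun q i j =>
      rg (f1 (ρ i) ((q.2 i : ℕ) / g) (z (q.1 i) + j * τ A))
    have hF : ∀ (q : (Fin n → κ) × (Fin n → Fin g)) (j : Fin n → Fin (2 ^ A)),
        Reg (fun x => φ (xq q) * EE ι J ψ a y (X τ d A fun i => j i) * ∏ i,
          f1 (ρ i) ((q.2 i : ℕ) / g) (z (q.1 i) + (j i : ℕ) * τ A) (d.repr x i))
        (φ (xq q) * EE ι J ψ a y (X τ d A fun i => j i) * ∏ i, F q i (j i)) := fun q j => by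
      by_cases k : φ (xq q) = 0
      · exact Reg.zero.congr (fun _ => by simp [k]) (by simp [k])
      · exact ((Reg.pi fun i => (hρ (⟨q, k⟩, j) i (j i)).elim fun r e =>
          e.congr (fun _ => rfl) e.rg_eq).comp d.equivFun.toAddEquiv).smul _
    refine ⟨_, ((Reg.sum univ fun q _ => Reg.sum univ fun j _ => hF q j).smul
      (((g : ℂ) ^ n)⁻¹ * fac)).congr (fun x => ?_) rfl, ?_⟩
    · have := point h hφ hy hz (A := A) (a := a) (fun x hx hv i s => hr A _ ?_ ?_) ρ x
      · rw [Fintype.sum_prod_type, ← this]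
        have : (g : ℂ) ≠ 0 := Nat.cast_ne_zero.2 (NeZero.ne g)
        simp only [fac]
        field_simp
      · have := ((Ow.nat g).mul (hN x i hx)).sub ((Ow.nat (π := π) N).mul (Ow.nat s))
        rwa [show _ - _ = ((N * g : ℕ) : K) * (d.repr x i - s / g) by
          push_cast; field_simp] at this
      · rw [sub_eq_add_neg]
        exact nm_add (hA x i hv) (nm_neg.trans_le ((nm_div hφ.odd s).trans
          (one_le_pow₀ one_le_two)))
    · have hw := (h.prim A).map_of_injective ι.injective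
      rw [Fintype.sum_prod_type (α₂ := Fin n → Fin (2 ^ A)), mul_sum, map_sum, ← sum_filter_of_ne
        (p := fun q => φ (xq q) ≠ 0) (fun q _ k m => k (by simp [m])),
        sum_subtype (p := fun q => φ (xq q) ≠ 0) (F := inferInstance) _ (by simp)]
      refine sum_congr rfl fun q _ => ?_
      have e : ∀ β : Fin n → Fin (2 ^ A), ι (((g : ℂ) ^ n)⁻¹ * fac * φ (xq q.1) * S β) *
          ∏ i, fo ι τ ψ (ρ i) ((q.1.2 i : ℕ) / g) (z (q.1.1 i)) A
            (if S β = 0 then β0 i else (β i : ℕ)) = ∑ j : Fin n → Fin (2 ^ A),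
          ι (((g : ℂ) ^ n)⁻¹ * fac * φ (xq q.1) * EE ι J ψ a y (X τ d A fun i => j i)) *
            ∏ i, (ι (ψ (τ A)) ^ ((j i : ℕ) * (β i : ℕ)) *
              ft (ι (ψ (τ A))) A (fun j => ι (F q.1 i j)) (β i : ℕ)) := fun β => by
        have : ι (((g : ℂ) ^ n)⁻¹ * fac * φ (xq q.1) * S β) *
          ∏ i, fo ι τ ψ (ρ i) ((q.1.2 i : ℕ) / g) (z (q.1.1 i)) A
            (if S β = 0 then β0 i else (β i : ℕ)) =
          ι (((g : ℂ) ^ n)⁻¹ * fac * φ (xq q.1) * S β) *
          ∏ i, ft (ι (ψ (τ A))) A (fun j => ι (F q.1 i j)) (β i : ℕ) := by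
          by_cases k : S β = 0
          · simp [k]
          · simp only [k, if_false]
            rfl
        rw [this]
        simp only [S, ← ee_kk h y, mul_sum, map_sum, sum_mul, map_mul, map_prod, map_pow,
          prod_mul_distrib]
        exact sum_congr rfl fun j _ => by ring
      simp only [e]
      rw [sum_comm, mul_sum, map_sum]
      refine sum_congr rfl fun j _ => ?_
      rw [← mul_sum, ← Fintype.piFinset_univ, ← prod_univ_sum (fun _ => univ)
        fun i (β : Fin (2 ^ A)) => ι (ψ (τ A)) ^ ((j i : ℕ) * (β : ℕ)) *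
          ft (ι (ψ (τ A))) A (fun j => ι (F q.1 i j)) (β : ℕ)]
      simp only [← ft_inv hw, map_mul, map_prod]
      ring

end Vale.Agent.P004C.Ms
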