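import Vale.Agent.P004C.Ms.St
import Vale.Agent.P004C.Al.Gb0

/-!
# P004 C, block MEAS: finite Fourier analysis
-/

set_option linter.unusedSectionVars false

open NumberField Module Finset Algebra
open scoped Classical

noncomputable section

namespace Vale.Agent.P004C.Ms

open In An Al.Gx

/-- Fourier inversion -/
theorem ft_inv {w : ℂ_[2]} {A : ℕ} (hw : IsPrimitiveRoot w (2 ^ A)) (G : ℕ → ℂ_[2])
    (j : Fin (2 ^ A)) : G j = ∑ β : Fin (2 ^ A), w ^ ((j : ℕ) * (β : ℕ)) * ft w A G (β : ℕ) := by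
  have w0 : w ≠ 0 := hw.ne_zero (by positivity)
  have key : ∀ i ∈ range (2 ^ A), ∑ β : Fin (2 ^ A), w ^ ((j : ℕ) * (β : ℕ)) *
      w ^ (-((i : ℤ) * ((β : ℕ) : ℤ))) = if i = j then 2 ^ A else 0 := fun i hi => by
    have e : ∀ β : Fin (2 ^ A), w ^ ((j : ℕ) * (β : ℕ)) * w ^ (-((i : ℤ) * ((β : ℕ) : ℤ))) =
        (w ^ (((j : ℕ) : ℤ) - i)) ^ (β : ℕ) := fun β => by
      rw [← zpow_natCast, ← zpow_add₀ w0, ← zpow_natCast, ← zpow_mul]
      congr 1
      push_cast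
      ring
    simp only [e]
    rw [Fin.sum_univ_eq_sum_range (fun β => (w ^ (((j : ℕ) : ℤ) - i)) ^ β)]
    split_ifs with h
    · simp [h]
    · have h1 : w ^ (((j : ℕ) : ℤ) - i) ≠ 1 := fun k => by
        have := Int.eq_zero_of_abs_lt_dvd ((hw.zpow_eq_one_iff_dvd _).1 k) (by
          have := j.2
          have := mem_range.1 hi
          rw [abs_lt]
          omega)
        omega
      rw [geom_sum_eq h1, ← zpow_natCast, ← zpow_mul, mul_comm, zpow_mul, zpow_natCast,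
        hw.pow_eq_one, one_zpow, sub_self, zero_div]
  simp only [ft, mul_sum]
  rw [sum_comm]
  have : ∀ i ∈ range (2 ^ A), ∑ β : Fin (2 ^ A), w ^ ((j : ℕ) * (β : ℕ)) * (((2 : ℂ_[2]) ^ A)⁻¹ *
      (w ^ (-((i : ℤ) * ((β : ℕ) : ℤ))) * G i)) = if i = j then G j else 0 := fun i hi => by
    have := key i hi
    calc _ = (∑ β : Fin (2 ^ A), w ^ ((j : ℕ) * (β : ℕ)) * w ^ (-((i : ℤ) * ((β : ℕ) : ℤ)))) *
        (((2 : ℂ_[2]) ^ A)⁻¹ * G i) := by
          rw [sum_mul]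
          exact sum_congr rfl fun _ _ => by ring
      _ = _ := by
          rw [this]
          split_ifs with h
          · rw [h, mul_inv_cancel_left₀ (pow_ne_zero _ two_ne_zero)]
          · rw [zero_mul]
  rw [sum_congr rfl this, sum_ite_eq', if_pos (mem_range.2 j.2)]

theorem sum_sh {G : Type*} [AddGroup G] [Fintype G] (F : G → ℂ) (u : G) :
    ∑ s, F (s + u) = ∑ s, F s := Equiv.sum_comp (Equiv.addRight u) F

/-- functions with mean zero in each variable -/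
theorem mz_prod {n g : ℕ} [NeZero g] (c : (Fin n → Fin g) → ℂ)
    (h : ∀ (s : Fin n → Fin g) (i : Fin n), ∑ t : Fin g, c (s + Pi.single i t) = 0)
    (P : Fin n → Fin g → ℂ) (Q : Fin n → ℂ) :
    ∑ s, c s * ∏ i, (P i (s i) - Q i) = ∑ s, c s * ∏ i, P i (s i) := by
  have key : ∀ (F : (Fin n → Fin g) → ℂ) (i : Fin n), (∀ (s : Fin n → Fin g) (t : Fin g),
      F (s + (Pi.single i t : Fin n → Fin g)) = F s) →
      ∑ s, c s * F s = 0 := fun F i hF => by
    have e : ∑ t : Fin g, ∑ s : Fin n → Fin g, c (s + (Pi.single i t : Fin n → Fin g)) *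
        F (s + (Pi.single i t : Fin n → Fin g)) = ∑ _t : Fin g, ∑ s, c s * F s :=
      sum_congr rfl fun t _ => sum_sh (fun s => c s * F s) _
    rw [sum_comm, sum_const, card_univ, Fintype.card_fin] at e
    simp only [hF, ← sum_mul, h, zero_mul, sum_const_zero, nsmul_eq_mul] at e
    exact (mul_eq_zero.1 e.symm).resolve_left (Nat.cast_ne_zero.2 (NeZero.ne g))
  simp only [sub_eq_add_neg, prod_add, mul_sum]
  rw [sum_comm, sum_eq_single univ]
  · simp
  · intro t _ ht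
    obtain ⟨i, hi⟩ : ∃ i, i ∉ t := by
      by_contra k
      exact ht (eq_univ_of_forall fun i => not_not.1 fun m => k ⟨i, m⟩)
    refine key _ i fun s u => congrArg (· * _) (prod_congr rfl fun k hk => ?_)
    rw [Pi.add_apply, Pi.single_eq_of_ne (by rintro rfl; exact hi hk), add_zero]
  · simp

variable {K : Type} [Field K] [NumberField K] {ι : ℂ →+* ℂ_[2]} {J : K →+* ℂ} {π : 𝓞 K}
  {τ : ℕ → K} {ψ : K → ℂ}

section ow

variable {M : Type} [Field M] [NumberField M] [Algebra K M] {x y : M}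

theorem Ow.of_int (h : IsIntegral ℤ x) : Ow π x := ⟨0, by simpa using h⟩

theorem Ow.add (h : Ow π x) (k : Ow π y) : Ow π (x + y) := by
  obtain ⟨a, h⟩ := h
  obtain ⟨b, k⟩ := k
  refine ⟨a + b, ?_⟩
  have := (((int_s π).pow b).mul h).add (((int_s π).pow a).mul k)
  rwa [show _ + _ = algebraMap K M π ^ (a + b) * (x + y) by ring] at this

theorem Ow.mul (h : Ow π x) (k : Ow π y) : Ow π (x * y) := by
  obtain ⟨a, h⟩ := h
  obtain ⟨b, k⟩ := k
  refine ⟨a + b, ?_⟩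
  have := h.mul k
  rwa [show _ * _ = algebraMap K M π ^ (a + b) * (x * y) by ring] at this

theorem Ow.nat (a : ℕ) : Ow π (a : M) := .of_int (by simpa using isIntegral_algebraMap (R := ℤ) (x := a))

theorem Ow.neg (h : Ow π x) : Ow π (-x) := by
  obtain ⟨a, h⟩ := h
  exact ⟨a, by simpa using h.neg⟩

theorem Ow.sub (h : Ow π x) (k : Ow π y) : Ow π (x - y) := by
  simpa [sub_eq_add_neg] using h.add k.neg

end ow

theorem nm_add {x y : K} {r : ℝ} (h : ‖ι (J x)‖ ≤ r) (k : ‖ι (J y)‖ ≤ r) : ‖ι (J (x + y))‖ ≤ r := by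
  rw [map_add, map_add]
  exact (IsUltrametricDist.norm_add_le_max _ _).trans (max_le h k)

theorem nm_neg {x : K} : ‖ι (J (-x))‖ = ‖ι (J x)‖ := by rw [map_neg, map_neg, norm_neg]

theorem nm_mul {x y : K} : ‖ι (J (x * y))‖ = ‖ι (J x)‖ * ‖ι (J y)‖ := by
  rw [map_mul, map_mul, norm_mul]

theorem nm_i {x : K} (h : IsIntegral ℤ x) : ‖ι (J x)‖ ≤ 1 := nm_int (ι.comp J) h

theorem nm_nat (a : ℕ) : ‖ι (J a)‖ ≤ 1 := by
  rw [map_natCast, map_natCast]
  exact IsUltrametricDist.norm_natCast_le_one _ _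

theorem nm_tp (a : ℕ) : ‖ι (J (2 ^ a))‖ = (1 / 2) ^ a := by
  rw [map_pow, map_pow, map_ofNat, map_ofNat, norm_pow, nm_two]

theorem nm_odd {g : ℕ} (h : Odd g) : ‖(g : ℂ_[2])‖ = 1 := by
  obtain ⟨k, rfl⟩ := h
  have : ‖((2 * k : ℕ) : ℂ_[2])‖ < ‖(1 : ℂ_[2])‖ := by
    have := IsUltrametricDist.norm_natCast_le_one ℂ_[2] k
    rw [Nat.cast_mul, norm_mul, Nat.cast_ofNat, nm_two, norm_one]
    linarith
  rw [Nat.cast_add, Nat.cast_one, IsUltrametricDist.norm_add_eq_max_of_norm_ne_norm this.ne,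
    max_eq_right this.le, norm_one]

theorem nm_div {g : ℕ} (h : Odd g) (s : ℕ) : ‖ι (J (s / g))‖ ≤ 1 := by
  rw [map_div₀, map_div₀, norm_div, map_natCast J g, map_natCast ι g, nm_odd h, div_one]
  exact nm_nat s

theorem nm_sum {κ : Type*} (t : Finset κ) {x : κ → K} {r : ℝ} (hr : 0 ≤ r)
    (h : ∀ i ∈ t, ‖ι (J (x i))‖ ≤ r) : ‖ι (J (∑ i ∈ t, x i))‖ ≤ r := by
  rw [map_sum, map_sum]
  exact IsUltrametricDist.norm_sum_le_of_forall_le_of_nonneg hr h

namespace Ar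

variable (h : Ar ι J π τ ψ)
include h

theorem zero : ψ 0 = 1 := (h.ker 0).2 (by simp)

theorem ne (x : K) : ψ x ≠ 0 := fun k => by
  have := h.add x (-x)
  rw [add_neg_cancel, h.zero, k, zero_mul] at this
  exact one_ne_zero this

theorem nat (a : ℕ) (x : K) : ψ (a * x) = ψ x ^ a := by
  induction a with
  | zero => simp [h.zero]
  | succ a ih => rw [Nat.cast_succ, add_mul, one_mul, h.add, ih, pow_succ]

theorem per {x u : K} (k : ‖ι (J u)‖ ≤ 1) : ψ (x + u) = ψ x := by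
  rw [h.add, (h.ker u).2 k, mul_one]

theorem sum {κ : Type*} (t : Finset κ) (x : κ → K) : ψ (∑ i ∈ t, x i) = ∏ i ∈ t, ψ (x i) := by
  induction t using Finset.induction_on with
  | empty => simp [h.zero]
  | insert a t m ih => rw [sum_insert m, prod_insert m, h.add, ih]

theorem tu (A : ℕ) : ‖ι (J (2 ^ A * τ A))‖ = 1 := by
  rw [nm_mul, nm_tp, h.tv, ← mul_pow]
  norm_num

theorem prim (A : ℕ) : IsPrimitiveRoot (ψ (τ A)) (2 ^ A) := by
  have e : ψ (τ A) ^ 2 ^ A = 1 := by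
    rw [← h.nat, h.ker]
    simpa using (h.tu A).le
  cases A with
  | zero => simpa using e
  | succ A =>
    have : ¬ ψ (τ (A + 1)) ^ 2 ^ A = 1 := by
      rw [← h.nat, h.ker, Nat.cast_pow, Nat.cast_ofNat, nm_mul, nm_tp, h.tv, pow_succ, ← mul_assoc,
        ← mul_pow]
      norm_num
    rw [← orderOf_eq_prime_pow this e]
    exact IsPrimitiveRoot.orderOf _

theorem vi {M : Type} [Field M] [NumberField M] [Algebra K M] {u : K} (k : ‖ι (J u)‖ ≤ 1) {x : M}
    (hx : Vi ι J x) : Vi ι J (u • x) := by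
  obtain ⟨s, a, b⟩ := h.loc u k
  rw [Algebra.smul_def]
  refine mul_mem (S := Subring M) (s := Ov ι J M) ⟨s, a, ?_⟩ hx
  rw [← map_mul]
  exact b.map (IsScalarTower.toAlgHom ℤ K M)

end Ar

end Vale.Agent.P004C.Ms
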